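import Vale.Agent.P066.Word

/-!
Every natural unit interval graph gives a word whose state at the end is `χ_G`.

Processing the vertices in increasing order, the active vertices are the ones still having a
neighbour to come: a clique, and an interval `[lo, m)` of the processed prefix.
-/

noncomputable section

namespace Vale.Agent.P066

open Finset MvPolynomial

variable {N : ℕ}

/-- Properness of a colouring of the first `m` vertices. -/
def ProperN (H : ℕ → ℕ) {m : ℕ} (g : Fin m → Fin N) : Prop :=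
  ∀ i j : Fin m, i < j → j.1 ≤ H i.1 → g i ≠ g j

instance (H : ℕ → ℕ) {m : ℕ} (g : Fin m → Fin N) : Decidable (ProperN H g) :=
  inferInstanceAs (Decidable (∀ _ _, _))

/-- The weight of a vertex: its variable and its ascents to the right. -/
def vertexW (H : ℕ → ℕ) {m : ℕ} (g : Fin m → Fin N) (i : Fin m) : R N :=
  C (qq ^ (univ.filter fun j : Fin m => i < j ∧ j.1 ≤ H i.1 ∧ g i < g j).card) * X (g i)

/-- The weight of the retired vertices of a colouring. -/
def colW (H : ℕ → ℕ) (lo : ℕ) {m : ℕ} (g : Fin m → Fin N) : R N :=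
  ∏ i, if i.1 < lo then vertexW H g i else 1

/-- The colours of the active vertices, newest first. -/
def act (lo : ℕ) {m : ℕ} (g : Fin m → Fin N) : List (Fin N) := ((List.ofFn g).drop lo).reverse

/-- The colour function of the processed prefix. -/
def colSum (H : ℕ → ℕ) (lo m : ℕ) (c : List (Fin N)) : R N :=
  ∑ g ∈ univ.filter (fun g : Fin m → Fin N => ProperN H g ∧ act lo g = c), colW H lo g

theorem act_snoc {lo m : ℕ} (h : lo ≤ m) (g : Fin m → Fin N) (j : Fin N) :
    act lo (Fin.snoc g j : Fin (m + 1) → Fin N) = j :: act lo g := by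
  rw [act, act, List.ofFn_succ', List.concat_eq_append]
  simp only [Fin.snoc_castSucc, Fin.snoc_last]
  rw [List.drop_append_of_le_length (by simpa using h), List.reverse_append]
  rfl

theorem length_act (lo : ℕ) {m : ℕ} (g : Fin m → Fin N) : (act lo g).length = m - lo := by
  simp [act]

theorem mem_act {lo m : ℕ} {g : Fin m → Fin N} {x : Fin N} :
    x ∈ act lo g ↔ ∃ i : Fin m, lo ≤ i.1 ∧ g i = x := by
  rw [act, List.mem_reverse, List.mem_iff_getElem]
  constructor
  · rintro ⟨i, hi, rfl⟩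
    rw [List.length_drop, List.length_ofFn] at hi
    exact ⟨⟨lo + i, by omega⟩, Nat.le_add_right _ _, by simp⟩
  · rintro ⟨i, hi, rfl⟩
    refine ⟨i.1 - lo, by simp; omega, ?_⟩
    simp [Nat.add_sub_cancel' hi]

theorem act_eq_append {lo m : ℕ} (g : Fin m → Fin N) (h : lo < m) :
    act lo g = act (lo + 1) g ++ [g ⟨lo, h⟩] := by
  rw [act, act, List.drop_eq_getElem_cons (by simpa using h), List.reverse_cons]
  simp

theorem countP_act (p : Fin N → Bool) {m : ℕ} :
    ∀ (t : ℕ) (g : Fin m → Fin N),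
      (act t g).countP p = (univ.filter fun i : Fin m => t ≤ i.1 ∧ p (g i) = true).card := by
  induction m with
  | zero => intro t g; simp [act]
  | succ m ih =>
    intro t g
    by_cases ht : t ≤ m
    · rw [← Fin.snoc_init_self g, act_snoc ht, List.countP_cons, ih, card_filter, card_filter,
        Fin.sum_univ_castSucc]
      simp only [Fin.snoc_castSucc, Fin.snoc_last, Fin.val_castSucc, Fin.val_last, ht, true_and]
    · have h0 : act t g = [] := List.eq_nil_of_length_eq_zero (by rw [length_act]; omega)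
      rw [h0, List.countP_nil, filter_false_of_mem fun i _ => fun hi => ht (by omega), card_empty]

theorem properN_snoc {H : ℕ → ℕ} {lo m : ℕ} (hlo : ∀ u, u < lo → H u < m)
    (hhi : ∀ u, lo ≤ u → u < m → m ≤ H u) (g : Fin m → Fin N) (j : Fin N) :
    ProperN H (Fin.snoc g j : Fin (m + 1) → Fin N) ↔ ProperN H g ∧ j ∉ act lo g := by
  constructor
  · intro hg
    refine ⟨fun i k hik hk => by
      simpa using hg i.castSucc k.castSucc (Fin.castSucc_lt_castSucc_iff.2 hik) (by simpa using hk),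
      fun hj => ?_⟩
    obtain ⟨i, hi, e⟩ := mem_act.1 hj
    have := hg i.castSucc (Fin.last m) (Fin.castSucc_lt_last i) (by simpa using hhi i hi i.2)
    simp [e] at this
  · rintro ⟨hg, hj⟩ i k hik hk
    induction k using Fin.lastCases with
    | last =>
      obtain ⟨i, rfl⟩ := Fin.exists_castSucc_eq.2 (Fin.ne_last_of_lt hik)
      simp only [Fin.snoc_castSucc, Fin.snoc_last]
      refine fun e => hj (mem_act.2 ⟨i, not_lt.1 fun hi => ?_, e⟩)
      have := hlo i hi
      simp at hk
      omega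
    | cast k =>
      obtain ⟨i, rfl⟩ := Fin.exists_castSucc_eq.2 (Fin.ne_last_of_lt hik)
      simp only [Fin.snoc_castSucc]
      exact hg i k (Fin.castSucc_lt_castSucc_iff.1 hik) (by simpa using hk)

theorem colW_snoc {H : ℕ → ℕ} {lo m : ℕ} (hlo : ∀ u, u < lo → H u < m) (hm : lo ≤ m)
    (g : Fin m → Fin N) (j : Fin N) :
    colW H lo (Fin.snoc g j : Fin (m + 1) → Fin N) = colW H lo g := by
  rw [colW, colW, Fin.prod_univ_castSucc, if_neg (by simp; omega), mul_one]
  refine prod_congr rfl fun i _ => ?_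
  simp only [Fin.val_castSucc]
  refine ite_congr rfl (fun hi => ?_) fun _ => rfl
  rw [vertexW, vertexW, card_filter, card_filter, Fin.sum_univ_castSucc]
  have hh := hlo i hi
  simp [not_le.2 hh, Fin.castSucc_lt_castSucc_iff]

theorem colSum_plus {H : ℕ → ℕ} {lo m : ℕ} (hm : lo ≤ m) (hlo : ∀ u, u < lo → H u < m)
    (hhi : ∀ u, lo ≤ u → u < m → m ≤ H u) {j : Fin N} {c : List (Fin N)} (hj : j ∉ c) :
    colSum H lo (m + 1) (j :: c) = colSum H lo m c := by
  refine (sum_bij' (fun g _ => (Fin.snoc g j : Fin (m + 1) → Fin N)) (fun g _ => Fin.init g)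
    ?_ ?_ ?_ ?_ ?_).symm
  · intro g hg
    obtain ⟨hp, hc⟩ := (mem_filter.1 hg).2
    exact mem_filter.2 ⟨mem_univ _, (properN_snoc hlo hhi g j).2 ⟨hp, hc ▸ hj⟩,
      by rw [act_snoc hm, hc]⟩
  · intro g hg
    obtain ⟨hp, hc⟩ := (mem_filter.1 hg).2
    rw [← Fin.snoc_init_self g] at hp hc
    rw [act_snoc hm, List.cons.injEq] at hc
    exact mem_filter.2 ⟨mem_univ _, ((properN_snoc hlo hhi _ _).1 hp).1, hc.2⟩
  · intro g _
    exact Fin.init_snoc _ _
  · intro g hg
    have hc := (mem_filter.1 hg).2.2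
    rw [← Fin.snoc_init_self g, act_snoc hm, List.cons.injEq] at hc
    exact hc.1 ▸ Fin.snoc_init_self g
  · intro g _
    exact (colW_snoc hlo hm g j).symm

theorem colW_minus {H : ℕ → ℕ} {lo m : ℕ} (hm : lo < m) (hH : m ≤ H lo + 1) (g : Fin m → Fin N) :
    colW H (lo + 1) g =
      weight (act (lo + 1) g) (g ⟨lo, hm⟩) * (X (g ⟨lo, hm⟩) * colW H lo g) := by
  rw [colW, colW, ← mul_prod_erase univ _ (mem_univ (⟨lo, hm⟩ : Fin m)),
    ← mul_prod_erase univ (fun i : Fin m => if i.1 < lo then vertexW H g i else 1)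
      (mem_univ (⟨lo, hm⟩ : Fin m)), if_pos (Nat.lt_succ_self lo), if_neg (lt_irrefl lo), one_mul,
    vertexW, weight, countP_act, mul_assoc]
  congr 1
  · congr 3
    ext i
    have := i.2
    simp only [mem_filter, mem_univ, true_and, Fin.lt_def, decide_eq_true_eq]
    constructor
    · rintro ⟨h1, -, h2⟩
      exact ⟨h1, h2⟩
    · rintro ⟨h1, h2⟩
      exact ⟨h1, by omega, h2⟩
  · congr 1
    refine prod_congr rfl fun i hi => ?_
    have hne : i.1 ≠ lo := fun e => (mem_erase.1 hi).1 (Fin.ext e)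
    simp only [show i.1 < lo + 1 ↔ i.1 < lo by omega]

theorem colSum_minus {H : ℕ → ℕ} {lo m : ℕ} (hm : lo < m) (hH : m ≤ H lo + 1)
    (c : List (Fin N)) :
    colSum H (lo + 1) m c =
      ∑ j ∈ univ.filter (fun j => j ∉ c), weight c j * (X j * colSum H lo m (c ++ [j])) := by
  rw [colSum, ← sum_fiberwise_of_maps_to (g := fun g : Fin m → Fin N => g ⟨lo, hm⟩)
    (t := univ.filter (fun j => j ∉ c))]
  · refine sum_congr rfl fun j _ => ?_
    rw [colSum, mul_sum, mul_sum, filter_filter]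
    refine sum_congr ?_ fun g hg => ?_
    · ext g
      simp only [mem_filter, mem_univ, true_and, act_eq_append g hm]
      constructor
      · rintro ⟨⟨hp, hc⟩, hj⟩
        exact ⟨hp, by rw [hc, hj]⟩
      · rintro ⟨hp, hc⟩
        obtain ⟨h1, h2⟩ := List.append_inj' hc rfl
        exact ⟨⟨hp, h1⟩, by simpa using h2⟩
    · obtain ⟨-, -, hc⟩ := mem_filter.1 hg
      rw [act_eq_append g hm] at hc
      obtain ⟨h1, h2⟩ := List.append_inj' hc rfl
      rw [colW_minus hm hH, h1, show g ⟨lo, hm⟩ = j by simpa using h2]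
  · intro g hg
    obtain ⟨-, hp, hc⟩ := mem_filter.1 hg
    refine mem_filter.2 ⟨mem_univ _, fun hmem => ?_⟩
    obtain ⟨i, hi, e⟩ := mem_act.1 (hc.symm ▸ hmem)
    have hi' := i.2
    exact hp ⟨lo, hm⟩ i (by simp [Fin.lt_def]; omega) (by simp; omega) e.symm

/-- The state of the prefix `m` with active vertices from `lo` on is reached by the operators. -/
def Good (K : ℕ) (H : ℕ → ℕ) (lo m : ℕ) : Prop :=
  ∃ (k : ℕ) (F : V k), lo + k = m ∧ Reach K k F ∧ ∀ N, ∃ S : St N, Exch S ∧ Rep N F S ∧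
    ∀ c : List (Fin N), c.Nodup → c.length = k → colSum H lo m c = S c

theorem good_zero (K : ℕ) (H : ℕ → ℕ) : Good K H 0 0 := by
  refine ⟨0, 1, rfl, Reach.one, fun N => ⟨fun _ => 1, exch_one, rep_one, fun c _ hc => ?_⟩⟩
  obtain rfl := List.eq_nil_of_length_eq_zero hc
  simp [colSum, ProperN, act, colW]

theorem Good.plus {K : ℕ} {H : ℕ → ℕ} {lo m : ℕ} (h : Good K H lo m)
    (hlo : ∀ u, u < lo → H u < m) (hhi : ∀ u, lo ≤ u → u < m → m ≤ H u)
    (hK : m + 1 ≤ lo + K) : Good K H lo (m + 1) := by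
  obtain ⟨k, F, hk, hF, hS⟩ := h
  refine ⟨k + 1, dPlus F, by omega, Reach.plus (by omega) hF, fun N => ?_⟩
  obtain ⟨S, hE, hR, hC⟩ := hS N
  refine ⟨sPlus S, hE.plus, hR.plus hE, fun c hnd hlen => ?_⟩
  rcases c with _ | ⟨j, c⟩
  · simp at hlen
  · obtain ⟨hj, hc⟩ := List.nodup_cons.1 hnd
    rw [colSum_plus (by omega) hlo hhi hj, hC c hc (by simpa using hlen), sPlus, List.tail_cons]

theorem Good.minus {K : ℕ} {H : ℕ → ℕ} {lo m : ℕ} (h : Good K H lo m) (hm : lo < m)
    (hH : m ≤ H lo + 1) : Good K H (lo + 1) m := by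
  obtain ⟨k, F, hk, hF, hS⟩ := h
  obtain ⟨k, rfl⟩ := Nat.exists_eq_succ_of_ne_zero (show k ≠ 0 by omega)
  refine ⟨k, dMinus F, by omega, Reach.minus hF, fun N => ?_⟩
  obtain ⟨S, hE, hR, hC⟩ := hS N
  refine ⟨sMinus S, hE.minus, hR.minus hE, fun c hnd hlen => ?_⟩
  rw [colSum_minus hm hH, sMinus]
  refine sum_congr rfl fun j hj => ?_
  rw [hC (c ++ [j]) (List.nodup_append'.2 ⟨hnd, List.nodup_singleton j,
    fun x hx hx' => (mem_filter.1 hj).2 (List.mem_singleton.1 hx' ▸ hx)⟩) (by simp [hlen])]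

/-- Retire every vertex without a neighbour past `m`. -/
theorem Good.retire {K : ℕ} {H : ℕ → ℕ} (hH : Monotone H) {m : ℕ} :
    ∀ lo, lo ≤ m → Good K H lo m → (∀ u, u < lo → H u < m) →
      (∀ u, lo ≤ u → u < m → m ≤ H u + 1) →
      ∃ lo', lo' ≤ m ∧ Good K H lo' m ∧ (∀ u, u < lo' → H u < m) ∧
        ∀ u, lo' ≤ u → u < m → m ≤ H u := by
  intro lo hlo
  induction hlo using Nat.decreasingInduction with
  | self => exact fun hg h1 _ => ⟨m, le_rfl, hg, h1, fun u hu hu' => by omega⟩
  | of_succ lo hlo ih =>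
    intro hg h1 h2
    by_cases hH' : H lo < m
    · refine ih (hg.minus hlo (h2 lo le_rfl hlo)) (fun u hu => ?_)
        fun u hu hu' => h2 u (by omega) hu'
      rcases Nat.lt_succ_iff_lt_or_eq.1 hu with h | rfl
      · exact h1 u h
      · exact hH'
    · exact ⟨lo, hlo.le, hg, h1, fun u hu hu' => le_trans (not_lt.1 hH') (hH hu)⟩

/-- `h` continued by the identity. -/
def extH {n : ℕ} (h : Fin n → Fin n) (i : ℕ) : ℕ := if hi : i < n then (h ⟨i, hi⟩).1 else i

theorem extH_eq {n : ℕ} (h : Fin n → Fin n) (i : Fin n) : extH h i.1 = (h i).1 := by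
  simp [extH]

theorem extH_monotone {n : ℕ} {h : Fin n → Fin n} (hh : IsHess h) : Monotone (extH h) := by
  intro a b hab
  unfold extH
  split_ifs with ha hb hb
  · exact hh.mono (show (⟨a, ha⟩ : Fin n) ≤ ⟨b, hb⟩ from hab)
  · exact le_trans (Nat.le_of_lt (h _).2) (by omega)
  · omega
  · exact hab

/-- `χ_G` is the colour function of the whole graph with every vertex retired. -/
theorem chi_eq_colSum {n : ℕ} (h : Fin n → Fin n) :
    chi N h = colSum (extH h) n n ([] : List (Fin N)) := by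
  refine sum_congr ?_ fun g _ => ?_
  · ext g
    simp [IsProper, ProperN, Adj, act, extH_eq]
  · rw [colW, asc, card_filter, Fintype.sum_prod_type, ← Finset.prod_pow_eq_pow_sum, map_prod,
      ← prod_mul_distrib]
    refine prod_congr rfl fun i _ => ?_
    rw [if_pos i.2, vertexW, card_filter]
    congr 2
    congr 1
    exact sum_congr rfl fun j _ => by simp [Adj, extH_eq, and_assoc]

/-- The word of a natural unit interval graph. -/
theorem exists_reach_chi {n : ℕ} {h : Fin n → Fin n} (hh : IsHess h) {K : ℕ}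
    (hK : ∀ i, (h i).1 + 1 ≤ i.1 + K) :
    ∃ F : V 0, Reach K 0 F ∧ ∀ N, evalV N 0 F = chi N h := by
  set H := extH h with hH
  have hmono : Monotone H := extH_monotone hh
  have hle : ∀ u, u < n → u ≤ H u ∧ H u < n ∧ H u + 1 ≤ u + K := by
    intro u hu
    rw [hH, extH, dif_pos hu]
    exact ⟨hh.le ⟨u, hu⟩, (h _).2, hK ⟨u, hu⟩⟩
  have main : ∀ m, m ≤ n → ∃ lo, lo ≤ m ∧ Good K H lo m ∧ (∀ u, u < lo → H u < m) ∧
      ∀ u, lo ≤ u → u < m → m ≤ H u + 1 := by
    intro m
    induction m with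
    | zero =>
      exact fun _ => ⟨0, le_rfl, good_zero K H, fun u hu => absurd hu (Nat.not_lt_zero u),
        fun u _ hu => absurd hu (Nat.not_lt_zero u)⟩
    | succ m ih =>
      intro hm
      obtain ⟨lo, hlo, hg, h1, h2⟩ := ih (by omega)
      obtain ⟨lo', hlo', hg', h1', h2'⟩ := hg.retire hmono lo hlo h1 h2
      refine ⟨lo', by omega, hg'.plus h1' h2' ?_, fun u hu => Nat.lt_succ_of_lt (h1' u hu),
        fun u hu hu' => ?_⟩
      · rcases hlo'.lt_or_eq with hlt | heq
        · have := h2' lo' le_rfl hlt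
          have := (hle lo' (by omega)).2.2
          omega
        · have := (hle m (by omega)).2.2
          have := (hle m (by omega)).1
          omega
      · rcases Nat.lt_succ_iff_lt_or_eq.1 hu' with hlt | rfl
        · have := h2' u hu hlt
          omega
        · have := (hle u (by omega)).1
          omega
  obtain ⟨lo, hlo, hg, h1, h2⟩ := main n le_rfl
  obtain ⟨lo', hlo', ⟨k, F, hk, hF, hS⟩, -, h2'⟩ := hg.retire hmono lo hlo h1 h2
  have hlo'' : lo' = n := by
    by_contra hne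
    have := h2' lo' le_rfl (by omega)
    have := (hle lo' (by omega)).2.1
    omega
  obtain rfl : k = 0 := by omega
  refine ⟨F, hF, fun N => ?_⟩
  obtain ⟨S, -, hR, hC⟩ := hS N
  rw [hR (Nat.zero_le N), seg_self, ← hC [] List.nodup_nil rfl, hlo'', chi_eq_colSum, hH]

end Vale.Agent.P066
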