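import Vale.Agent.P066.Bridge

/-!
Closed cones of positive states give elementary positivity.
-/

noncomputable section

namespace Vale.Agent.P066

open Finset MvPolynomial

/-- All coefficients are in `ℕ[q]`. -/
def IsNatQ {k : ℕ} (F : V k) : Prop := ∀ d, ∃ s : Polynomial ℕ, natQ s = coeff d F

/-- The parts of a monomial of `V 0`. -/
def partsOf (d : (ℕ ⊕ Fin 0) →₀ ℕ) : Multiset ℕ :=
  (Finsupp.toMultiset d).map (Sum.elim (fun j => j + 1) fun i => i.elim0)

theorem partsOf_pos (d : (ℕ ⊕ Fin 0) →₀ ℕ) {i : ℕ} (hi : i ∈ partsOf d) : 0 < i := by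
  obtain ⟨x, -, rfl⟩ := Multiset.mem_map.1 hi
  rcases x with j | e
  · exact Nat.succ_pos j
  · exact e.elim0

variable {N : ℕ}

theorem evalV_monomial (d : (ℕ ⊕ Fin 0) →₀ ℕ) (r : Polynomial ℤ) :
    evalV N 0 (monomial d r) =
      C r * ((partsOf d).map (esymm (Fin N) (Polynomial ℤ))).prod := by
  rw [evalV, aeval_monomial, MvPolynomial.algebraMap_eq, partsOf, Multiset.map_map,
    Finset.prod_multiset_map_count, Finsupp.toFinset_toMultiset, Finsupp.prod]
  congr 1
  refine prod_congr rfl fun x _ => ?_
  rw [Finsupp.count_toMultiset]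
  rcases x with j | e
  · rfl
  · exact e.elim0

theorem isHomogeneous_esymm_prod (s : Multiset ℕ) :
    ((s.map (esymm (Fin N) (Polynomial ℤ))).prod).IsHomogeneous s.sum := by
  induction s using Multiset.induction_on with
  | empty => simpa using MvPolynomial.isHomogeneous_one (Fin N) (Polynomial ℤ)
  | cons a s ih =>
    rw [Multiset.map_cons, Multiset.prod_cons, Multiset.sum_cons]
    refine MvPolynomial.IsHomogeneous.mul ?_ ih
    rw [esymm]
    refine MvPolynomial.IsHomogeneous.sum _ _ _ fun t ht => ?_
    have := MvPolynomial.IsHomogeneous.prod t (fun i => (X i : R N)) (fun _ => 1)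
      fun i _ => isHomogeneous_X _ i
    rwa [Finset.sum_const, smul_eq_mul, mul_one, (mem_powersetCard.1 ht).2] at this

theorem isHomogeneous_chi {n : ℕ} (h : Fin n → Fin n) : (chi N h).IsHomogeneous n := by
  refine MvPolynomial.IsHomogeneous.sum _ _ _ fun f _ => ?_
  have := MvPolynomial.IsHomogeneous.prod univ (fun a => (X (f a) : R N)) (fun _ => 1)
    fun a _ => isHomogeneous_X _ (f a)
  simpa using this.C_mul (qq ^ asc h f)

/-- A representing element of `V 0` with coefficients in `ℕ[q]` gives positivity. -/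
theorem ePositive_of_isNatQ {n : ℕ} {h : Fin n → Fin n} {F : V 0} (hF : IsNatQ F)
    (hev : ∀ N, evalV N 0 F = chi N h) : EPositive h := by
  classical
  choose s hs using hF
  refine ⟨fun μ => ∑ d ∈ F.support, if partsOf d = μ.parts then s d else 0, fun N => ?_⟩
  have hchi : chi N h = ∑ d ∈ F.support, if (partsOf d).sum = n then
      C (coeff d F) * ((partsOf d).map (esymm (Fin N) (Polynomial ℤ))).prod else 0 := by
    conv_lhs => rw [← (homogeneousComponent_of_mem (isHomogeneous_chi (N := N) h)).trans (if_pos rfl),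
      ← hev N, F.as_sum, map_sum, map_sum]
    refine sum_congr rfl fun d _ => ?_
    rw [evalV_monomial, homogeneousComponent_of_mem ((isHomogeneous_esymm_prod _).C_mul _)]
    split_ifs <;> first | rfl | omega
  rw [hchi]
  simp only [map_sum, sum_mul]
  rw [sum_comm]
  refine sum_congr rfl fun d _ => ?_
  split_ifs with hd
  · rw [sum_eq_single (⟨partsOf d, partsOf_pos d, hd⟩ : n.Partition)]
    · rw [if_pos rfl, hs, esymmPart]
    · intro μ _ hμ
      rw [if_neg fun e => hμ (Nat.Partition.ext e.symm)]
      simp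
    · simp
  · refine (sum_eq_zero fun μ _ => ?_).symm
    rw [if_neg fun e => hd (by rw [e, μ.parts_sum])]
    simp

/-- States closed under the two operators which are positive in degree zero prove the
conjecture for the graphs `G(h)` with `h i < i + K`. -/
theorem ePositive_of_closed (K : ℕ) (P : ∀ k, V k → Prop) (hone : P 0 1)
    (hplus : ∀ k F, k + 1 ≤ K → P k F → P (k + 1) (dPlus F))
    (hminus : ∀ k F, k + 1 ≤ K → P (k + 1) F → P k (dMinus F))
    (hzero : ∀ F, P 0 F → IsNatQ F)
    {n : ℕ} {h : Fin n → Fin n} (hh : IsHess h) (hK : ∀ i, (h i).1 + 1 ≤ i.1 + K) :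
    EPositive h := by
  obtain ⟨F, hF, hev⟩ := exists_reach_chi hh hK
  refine ePositive_of_isNatQ (hzero F ?_) hev
  have key : ∀ {k : ℕ} {G : V k}, Reach K k G → k ≤ K ∧ P k G := by
    intro k G hG
    induction hG with
    | one => exact ⟨Nat.zero_le K, hone⟩
    | plus hk _ ih => exact ⟨hk, hplus _ _ hk ih.2⟩
    | minus _ ih => exact ⟨by omega, hminus _ _ ih.1 ih.2⟩
  exact (key hF).2

/-- The Shareshian-Wachs statement follows from closed positive states at every level. -/
theorem ePositive_of_closed_all (P : ∀ k, V k → Prop) (hone : P 0 1)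
    (hplus : ∀ k F, P k F → P (k + 1) (dPlus F))
    (hminus : ∀ k F, P (k + 1) F → P k (dMinus F))
    (hzero : ∀ F, P 0 F → IsNatQ F)
    {n : ℕ} {h : Fin n → Fin n} (hh : IsHess h) : EPositive h :=
  ePositive_of_closed n P hone (fun k F _ => hplus k F) (fun k F _ => hminus k F) hzero hh
    fun i => by have := (h i).2; omega

end Vale.Agent.P066
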