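import Mathlib

/-!
# P066: definitions

Natural unit interval graphs, their chromatic quasisymmetric functions in `N` colours, and the space
`V k` of states with `k` active vertices together with the operators `dPlus` (add a vertex adjacent to
all active vertices) and `dMinus` (retire the oldest active vertex).
-/

noncomputable section

namespace Vale.Agent.P066

open Finset MvPolynomial

/-- A natural unit interval sequence, zero-based: `h` is monotone and `i ≤ h i`. -/
structure IsHess {n : ℕ} (h : Fin n → Fin n) : Prop where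
  mono : Monotone h
  le : ∀ i, i ≤ h i

/-- The edge `i < j ≤ h i` of `G(h)`. -/
def Adj {n : ℕ} (h : Fin n → Fin n) (i j : Fin n) : Prop := i < j ∧ j ≤ h i

instance {n : ℕ} (h : Fin n → Fin n) (i j : Fin n) : Decidable (Adj h i j) :=
  inferInstanceAs (Decidable (_ ∧ _))

/-- A proper colouring of `G(h)`. -/
def IsProper {n N : ℕ} (h : Fin n → Fin n) (f : Fin n → Fin N) : Prop :=
  ∀ i j, Adj h i j → f i ≠ f j

instance {n N : ℕ} (h : Fin n → Fin n) (f : Fin n → Fin N) : Decidable (IsProper h f) :=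
  inferInstanceAs (Decidable (∀ _ _, _))

/-- The number of ascents of a colouring. -/
def asc {n N : ℕ} (h : Fin n → Fin n) (f : Fin n → Fin N) : ℕ :=
  (univ.filter fun e : Fin n × Fin n => Adj h e.1 e.2 ∧ f e.1 < f e.2).card

/-- The variable `q` of the coefficient ring `ℤ[q]`. -/
def qq : Polynomial ℤ := Polynomial.X

/-- The chromatic quasisymmetric function `χ_G(x_1, …, x_N; q)`. -/
def chi {n : ℕ} (N : ℕ) (h : Fin n → Fin n) : MvPolynomial (Fin N) (Polynomial ℤ) :=
  ∑ f ∈ univ.filter (fun f : Fin n → Fin N => IsProper h f),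
    C (qq ^ asc h f) * ∏ a, X (f a)

/-- The inclusion of `ℕ[q]` in `ℤ[q]`. -/
def natQ : Polynomial ℕ →+* Polynomial ℤ := Polynomial.mapRingHom (Nat.castRingHom ℤ)

/-- `χ_G` is a combination of the `e_λ` with coefficients in `ℕ[q]`, for every number of colours.
As the `e_λ` are linearly independent for `N ≥ n`, these coefficients are then the `c_λ(q)`. -/
def EPositive {n : ℕ} (h : Fin n → Fin n) : Prop :=
  ∃ c : n.Partition → Polynomial ℕ, ∀ N : ℕ,
    chi N h = ∑ μ, C (natQ (c μ)) * esymmPart (Fin N) (Polynomial ℤ) μ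

/-- The states with `k` active vertices: `Sym[W] ⊗ ℤ[q][y]`.  The variable `Sum.inl j` is
`e_{j+1}[W]` and `Sum.inr i` is the variable of the `i`-th newest active vertex. -/
abbrev V (k : ℕ) := MvPolynomial (ℕ ⊕ Fin k) (Polynomial ℤ)

/-- `e_j[W]`. -/
def eW {k : ℕ} : ℕ → V k
  | 0 => 1
  | j + 1 => X (Sum.inl j)

/-- `e_j[W - y_1 - … - y_k]`. -/
def eZ : (k : ℕ) → ℕ → V k
  | 0, j => eW j
  | k + 1, j => ∑ i ∈ range (j + 1),
      (-X (Sum.inr (Fin.last k))) ^ i * rename (Sum.map id Fin.castSucc) (eZ k (j - i))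

/-- The `q`-integer `[r]`. -/
def qint (r : ℕ) : Polynomial ℤ := ∑ i ∈ range r, qq ^ i

/-- `h_r[(1-q)Z]/(1-q)` in terms of the elementary functions `e` of `Z`. -/
def plethP {R : Type*} [CommRing R] [Algebra (Polynomial ℤ) R] (e : ℕ → R) : ℕ → R
  | r => (-1) ^ (r + 1) * (algebraMap (Polynomial ℤ) R (qint r) * e r) -
      ∑ i : Fin (r - 1), (-1) ^ (i.1 + 1) * e (i.1 + 1) * plethP e (r - (i.1 + 1))
  termination_by r => r
  decreasing_by omega

/-- The exchange of the variables of two active positions. -/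
def swapY {k : ℕ} (a b : Fin k) : V k →ₐ[Polynomial ℤ] V k :=
  rename (Equiv.swap (Sum.inr a) (Sum.inr b) : ℕ ⊕ Fin k ≃ ℕ ⊕ Fin k)

theorem exists_divDiff {k : ℕ} (a b : Fin k) (F : V k) :
    ∃ H : V k, F - swapY a b F = (X (Sum.inr b) - X (Sum.inr a)) * H := by
  induction F using MvPolynomial.induction_on with
  | C c => exact ⟨0, by simp [swapY]⟩
  | add p q hp hq =>
    obtain ⟨u, hu⟩ := hp
    obtain ⟨v, hv⟩ := hq
    exact ⟨u + v, by rw [map_add, mul_add, ← hu, ← hv]; ring⟩
  | mul_X p i hp =>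
    obtain ⟨u, hu⟩ := hp
    obtain ⟨v, hv⟩ : ∃ v : V k, X i - swapY a b (X i) = (X (Sum.inr b) - X (Sum.inr a)) * v := by
      simp only [swapY, rename_X]
      by_cases ha : i = Sum.inr a
      · exact ⟨-1, by subst ha; rw [Equiv.swap_apply_left]; ring⟩
      · by_cases hb : i = Sum.inr b
        · exact ⟨1, by subst hb; rw [Equiv.swap_apply_right]; ring⟩
        · exact ⟨0, by rw [Equiv.swap_apply_of_ne_of_ne ha hb]; ring⟩
    refine ⟨u * X i + swapY a b p * v, ?_⟩
    rw [map_mul]
    linear_combination (X i) * hu + swapY a b p * hv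

/-- The divided difference `(F - s F) / (y_b - y_a)`. -/
def divDiff {k : ℕ} (a b : Fin k) (F : V k) : V k := Classical.choose (exists_divDiff a b F)

theorem divDiff_spec {k : ℕ} (a b : Fin k) (F : V k) :
    F - swapY a b F = (X (Sum.inr b) - X (Sum.inr a)) * divDiff a b F :=
  Classical.choose_spec (exists_divDiff a b F)

/-- The Demazure-Lusztig operator `s F + (q - 1) y_a (F - s F) / (y_b - y_a)`. -/
def opT {k : ℕ} (a b : Fin k) (F : V k) : V k :=
  swapY a b F + C (qq - 1) * X (Sum.inr a) * divDiff a b F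

/-- `T_1 ⋯ T_k` truncated: moves the active positions from `i` on up by one. -/
def tChain {k : ℕ} : (j : ℕ) → j ≤ k → V (k + 1) → V (k + 1)
  | 0, _, F => F
  | j + 1, h, F => tChain j (Nat.le_of_succ_le h)
      (opT (⟨j, by omega⟩ : Fin (k + 1)) ⟨j + 1, by omega⟩ F)

/-- Add a vertex adjacent to all active ones. -/
def dPlus {k : ℕ} (F : V k) : V (k + 1) :=
  tChain k le_rfl (rename (Sum.map id Fin.castSucc) F)

/-- `F` as a polynomial in the variable of the oldest active vertex. -/
def splitLast {k : ℕ} : V (k + 1) →ₐ[Polynomial ℤ] Polynomial (V k) :=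
  aeval (Sum.elim (fun j => Polynomial.C (X (Sum.inl j)))
    (Fin.lastCases Polynomial.X (fun i => Polynomial.C (X (Sum.inr i)))))

/-- Retire the oldest active vertex. -/
def dMinus {k : ℕ} (F : V (k + 1)) : V k :=
  (splitLast F).sum fun j G => G * plethP (eZ k) (j + 1)

/-- The states reached from `1` by the two operators, with at most `K` active vertices. -/
inductive Reach (K : ℕ) : (k : ℕ) → V k → Prop
  | one : Reach K 0 1
  | plus {k : ℕ} {F : V k} : k + 1 ≤ K → Reach K k F → Reach K (k + 1) (dPlus F)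
  | minus {k : ℕ} {F : V (k + 1)} : Reach K (k + 1) F → Reach K k (dMinus F)

end Vale.Agent.P066
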