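import Vale.Agent.P066.Word

/-!
An element of `V k` is determined by its values in every number of colours.
-/

noncomputable section

namespace Vale.Agent.P066

open Finset MvPolynomial

variable {N : ℕ}

theorem eventually_evalV_ne_zero_base (F : V 0) :
    ∃ M, ∀ N, M ≤ N → evalV N 0 F = 0 → F = 0 := by
  obtain ⟨s, G, hG⟩ := exists_finset_rename F
  set f : (ℕ ⊕ Fin 0) → ℕ := Sum.elim id (fun i => i.elim0) with hf
  refine ⟨s.sup f + 1, fun N hN h0 => ?_⟩
  let em : s → Fin N := fun x => ⟨f x.1, by
    have := Finset.le_sup (f := f) x.2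
    omega⟩
  have hem : Function.Injective em := by
    rintro ⟨x, hx⟩ ⟨y, hy⟩ e
    have e' : f x = f y := congrArg Fin.val e
    rcases x with i | i
    · rcases y with j | j
      · exact Subtype.ext (by simp [hf] at e'; simp [e'])
      · exact j.elim0
    · exact i.elim0
  have key : evalV N 0 F =
      ((esymmAlgHom (Fin N) (Polynomial ℤ) N (rename em G) :
        symmetricSubalgebra (Fin N) (Polynomial ℤ)) : R N) := by
    rw [esymmAlgHom_apply, aeval_rename, hG, evalV, aeval_rename]
    congr 1
    refine MvPolynomial.algHom_ext fun x => ?_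
    rcases x with ⟨i | i, hi⟩
    · simp [hf, em]
    · exact i.elim0
  have hinj := esymmAlgHom_fin_injective (Polynomial ℤ) (n := N) (m := N) le_rfl
  have hz : rename em G = 0 := by
    refine hinj (Subtype.ext ?_)
    rw [← key, h0, map_zero]
    rfl
  rw [hG, (rename_injective em hem) (hz.trans (map_zero _).symm), map_zero]

/-- `e_j[W' - y]` with `y` the oldest variable. -/
def eDrop (k : ℕ) : ℕ → V (k + 1)
  | 0 => 1
  | j + 1 => eW (j + 1) - X (Sum.inr (Fin.last k)) * eDrop k j

/-- The colour of the oldest variable set apart. -/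
def setApart (k : ℕ) : V (k + 1) →ₐ[Polynomial ℤ] Polynomial (V k) :=
  aeval (Sum.elim (fun j => Polynomial.C (eW (j + 1)) + Polynomial.X * Polynomial.C (eW j))
    (Fin.lastCases Polynomial.X fun i => Polynomial.C (X (Sum.inr i))))

/-- The inverse of `setApart`. -/
def putBack (k : ℕ) : Polynomial (V k) →+* V (k + 1) :=
  Polynomial.eval₂RingHom
    ((aeval (Sum.elim (fun j => eDrop k (j + 1)) fun i => X (Sum.inr i.castSucc)) :
      V k →ₐ[Polynomial ℤ] V (k + 1)) : V k →+* V (k + 1))
    (X (Sum.inr (Fin.last k)))

theorem putBack_setApart (k : ℕ) (F : V (k + 1)) : putBack k (setApart k F) = F := by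
  have key : (putBack k).comp (setApart k : V (k + 1) →+* Polynomial (V k)) = RingHom.id _ := by
    refine MvPolynomial.ringHom_ext (fun c => ?_) fun i => ?_
    · simp [putBack, setApart]
    · rcases i with j | i
      · have he : ∀ m : ℕ, (aeval (Sum.elim (fun j => eDrop k (j + 1))
            fun i => X (Sum.inr i.castSucc)) : V k →ₐ[Polynomial ℤ] V (k + 1)) (eW m) =
              eDrop k m := by
          intro m
          cases m <;> simp [eW, eDrop]
        have e1 := he (j + 1)
        have e2 := he j
        simp only [putBack, setApart, RingHom.comp_apply, RingHom.coe_coe, aeval_X, Sum.elim_inl,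
          map_add, map_mul, Polynomial.coe_eval₂RingHom, Polynomial.eval₂_C, Polynomial.eval₂_X,
          RingHom.id_apply, e1, e2]
        simp [eDrop, eW]
      · refine Fin.lastCases ?_ (fun i => ?_) i <;> simp [putBack, setApart]
  exact RingHom.congr_fun key F

theorem esymm_succ_colours (a : Fin (N + 1)) (j : ℕ) :
    esymm (Fin (N + 1)) (Polynomial ℤ) (j + 1) =
      rename a.succAbove (esymm (Fin N) (Polynomial ℤ) (j + 1)) +
        X a * rename a.succAbove (esymm (Fin N) (Polynomial ℤ) j) := by
  classical
  have hmap : ∀ r, rename a.succAbove (esymm (Fin N) (Polynomial ℤ) r) =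
      ∑ t ∈ powersetCard r ((univ : Finset (Fin N)).map a.succAboveEmb), ∏ i ∈ t, X i := by
    intro r
    rw [esymm, map_sum, powersetCard_map, sum_map]
    refine sum_congr rfl fun t _ => ?_
    rw [map_prod]
    simp
  have ha : a ∉ (univ : Finset (Fin N)).map a.succAboveEmb := by
    simp [Fin.succAbove_ne]
  rw [hmap, hmap, esymm, Fin.univ_succAbove N a, cons_eq_insert, powersetCard_succ_insert ha,
    sum_union, sum_image, mul_sum]
  · congr 1
    refine sum_congr rfl fun t ht => ?_
    rw [prod_insert fun h => ha ((mem_powersetCard.1 ht).1 h)]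
  · intro t ht t' ht' e
    have := congrArg (fun u : Finset (Fin (N + 1)) => u.erase a) e
    simpa [erase_insert (fun h => ha ((mem_powersetCard.1 ht).1 h)),
      erase_insert (fun h => ha ((mem_powersetCard.1 ht').1 h))] using this
  · refine disjoint_left.2 fun t ht ht' => ?_
    obtain ⟨u, -, rfl⟩ := mem_image.1 ht'
    exact ha ((mem_powersetCard.1 ht).1 (mem_insert_self a u))

/-- The colour `a` set apart. -/
def peel (a : Fin (N + 1)) : R (N + 1) →ₐ[Polynomial ℤ] Polynomial (R N) :=
  aeval fun i => ((finSuccEquiv' a) i).elim Polynomial.X fun j => Polynomial.C (X j)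

theorem peel_X_self (a : Fin (N + 1)) : peel a (X a) = Polynomial.X := by
  simp [peel, finSuccEquiv'_at]

theorem peel_X_succAbove (a : Fin (N + 1)) (i : Fin N) :
    peel a (X (a.succAbove i)) = Polynomial.C (X i) := by
  simp [peel, finSuccEquiv'_succAbove]

theorem evalV_setApart {k : ℕ} (hk : k ≤ N) (F : V (k + 1)) :
    peel (⟨k, Nat.lt_succ_of_le hk⟩ : Fin (N + 1)) (evalV (N + 1) (k + 1) F) =
      Polynomial.map (evalV N k : V k →+* R N) (setApart k F) := by
  set a : Fin (N + 1) := ⟨k, Nat.lt_succ_of_le hk⟩ with ha
  have hren : ∀ P : R N, peel a (rename a.succAbove P) = Polynomial.C P := by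
    intro P
    induction P using MvPolynomial.induction_on with
    | C c => simp [peel]
    | add p q hp hq => simp [map_add, hp, hq]
    | mul_X p i hp => simp [map_mul, hp, peel_X_succAbove]
  have key : ((peel a).comp (evalV (N + 1) (k + 1))).toRingHom =
      (Polynomial.mapRingHom (evalV N k : V k →+* R N)).comp
        (setApart k : V (k + 1) →+* Polynomial (V k)) := by
    refine MvPolynomial.ringHom_ext (fun c => ?_) fun i => ?_
    · simp [evalV, setApart]
    · rcases i with j | i
      · simp [evalV, setApart, esymm_succ_colours a j, map_add, map_mul, hren,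
          peel_X_self]
        cases j <;> simp [eW]
      · refine Fin.lastCases ?_ (fun i => ?_) i
        · simp [evalV, setApart, xv_eq (show k < N + 1 by omega), ← ha, peel_X_self]
        · have hi : i.1 < N := Nat.lt_of_lt_of_le i.2 hk
          have : (⟨i.1, Nat.lt_succ_of_lt hi⟩ : Fin (N + 1)) = a.succAbove ⟨i.1, hi⟩ := by
            rw [Fin.succAbove_of_castSucc_lt a ⟨i.1, hi⟩ (by simp [ha, Fin.lt_def])]
            rfl
          simp [evalV, setApart, xv_eq (Nat.lt_succ_of_lt hi), xv_eq hi, this,
            peel_X_succAbove]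
  exact RingHom.congr_fun key F

/-- For many colours the evaluation is injective at `F`. -/
theorem eventually_evalV_ne_zero : ∀ {k : ℕ} (F : V k),
    ∃ M, ∀ N, M ≤ N → evalV N k F = 0 → F = 0 := by
  intro k
  induction k with
  | zero => exact eventually_evalV_ne_zero_base
  | succ k ih =>
    intro F
    choose M hM using ih
    refine ⟨(setApart k F).support.sup (fun r => M ((setApart k F).coeff r)) + k + 1,
      fun N hN h0 => ?_⟩
    obtain ⟨N, rfl⟩ := Nat.exists_eq_succ_of_ne_zero (show N ≠ 0 by omega)
    have h := evalV_setApart (show k ≤ N by omega) F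
    rw [h0, map_zero] at h
    have hz : setApart k F = 0 := by
      refine Polynomial.ext fun r => ?_
      rw [Polynomial.coeff_zero]
      by_contra hr
      have hle := Finset.le_sup (f := fun r => M ((setApart k F).coeff r))
        (Polynomial.mem_support_iff.2 hr)
      refine hr (hM _ N (by omega) ?_)
      have := congrArg (Polynomial.coeff · r) h
      simpa [Polynomial.coeff_map] using this.symm
    rw [← putBack_setApart k F, hz, map_zero]

/-- Two elements with the same values are equal. -/
theorem ext_evalV {k : ℕ} {F G : V k} (h : ∀ N, k ≤ N → evalV N k F = evalV N k G) : F = G := by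
  obtain ⟨M, hM⟩ := eventually_evalV_ne_zero (F - G)
  refine sub_eq_zero.1 (hM (max M k) (le_max_left _ _) ?_)
  rw [map_sub, h _ (le_max_right _ _), sub_self]

end Vale.Agent.P066
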