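import Vale.Agent.P066.Defs

/-!
The operators `opT`, `dPlus` and `dMinus` are linear over `ℤ[q][e]`.
-/

noncomputable section

namespace Vale.Agent.P066

open Finset MvPolynomial

/-- The scalars `ℤ[q][e]` inside `V k`. -/
def eScalar {k : ℕ} : V 0 →ₐ[Polynomial ℤ] V k :=
  rename (Sum.map id fun i : Fin 0 => i.elim0)

theorem eScalar_rename {k l : ℕ} (f : Fin k → Fin l) (r : V 0) :
    rename (Sum.map id f) (eScalar r : V k) = eScalar r := by
  rw [eScalar, rename_rename, eScalar]
  congr 1
  congr 1
  funext x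
  rcases x with j | i
  · rfl
  · exact i.elim0

theorem swapY_eScalar {k : ℕ} (a b : Fin k) (r : V 0) :
    swapY a b (eScalar r) = eScalar r := by
  rw [eScalar, swapY, rename_rename]
  congr 1
  congr 1
  funext x
  rcases x with j | i
  · exact Equiv.swap_apply_of_ne_of_ne (by simp) (by simp)
  · exact i.elim0

theorem X_inr_sub_ne {k : ℕ} {a b : Fin k} (h : a ≠ b) :
    (X (Sum.inr b) - X (Sum.inr a) : V k) ≠ 0 :=
  sub_ne_zero.2 fun e => h (Sum.inr_injective (X_injective e)).symm

/-- The divided difference is determined by its equation. -/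
theorem divDiff_unique {k : ℕ} {a b : Fin k} (h : a ≠ b) {F H : V k}
    (e : F - swapY a b F = (X (Sum.inr b) - X (Sum.inr a)) * H) : divDiff a b F = H :=
  mul_left_cancel₀ (X_inr_sub_ne h) ((divDiff_spec a b F).symm.trans e)

theorem divDiff_add {k : ℕ} {a b : Fin k} (h : a ≠ b) (F G : V k) :
    divDiff a b (F + G) = divDiff a b F + divDiff a b G := by
  refine divDiff_unique h ?_
  rw [map_add]
  linear_combination divDiff_spec a b F + divDiff_spec a b G

theorem divDiff_mul {k : ℕ} {a b : Fin k} (h : a ≠ b) {P : V k} (hP : swapY a b P = P) (F : V k) :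
    divDiff a b (P * F) = P * divDiff a b F := by
  refine divDiff_unique h ?_
  rw [map_mul, hP]
  linear_combination P * divDiff_spec a b F

theorem opT_add {k : ℕ} {a b : Fin k} (h : a ≠ b) (F G : V k) :
    opT a b (F + G) = opT a b F + opT a b G := by
  simp only [opT, divDiff_add h, map_add]
  ring

/-- `opT` commutes with what the exchange fixes. -/
theorem opT_mul {k : ℕ} {a b : Fin k} (h : a ≠ b) {P : V k} (hP : swapY a b P = P) (F : V k) :
    opT a b (P * F) = P * opT a b F := by
  simp only [opT, divDiff_mul h hP, map_mul, hP]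
  ring

theorem opT_smul {k : ℕ} {a b : Fin k} (h : a ≠ b) (r : V 0) (F : V k) :
    opT a b (eScalar r * F) = eScalar r * opT a b F :=
  opT_mul h (swapY_eScalar a b r) F

theorem tChain_succ {k j : ℕ} (hj : j + 1 ≤ k) (F : V (k + 1)) :
    tChain (j + 1) hj F = tChain j (Nat.le_of_succ_le hj)
      (opT (⟨j, by omega⟩ : Fin (k + 1)) ⟨j + 1, by omega⟩ F) := by
  rw [tChain]

theorem tChain_zero {k : ℕ} (h : 0 ≤ k) (F : V (k + 1)) : tChain 0 h F = F := by
  rw [tChain]

theorem tChain_add {k : ℕ} : ∀ (j : ℕ) (hj : j ≤ k) (F G : V (k + 1)),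
    tChain j hj (F + G) = tChain j hj F + tChain j hj G
  | 0, h, F, G => by rw [tChain_zero h, tChain_zero h, tChain_zero h]
  | j + 1, hj, F, G => by
    rw [tChain_succ hj, tChain_succ hj F, tChain_succ hj G,
      opT_add (fun e => by simp [Fin.ext_iff] at e), tChain_add j]

theorem tChain_smul {k : ℕ} : ∀ (j : ℕ) (hj : j ≤ k) (r : V 0) (F : V (k + 1)),
    tChain j hj (eScalar r * F) = eScalar r * tChain j hj F
  | 0, h, r, F => by rw [tChain_zero h, tChain_zero h]
  | j + 1, hj, r, F => by
    rw [tChain_succ hj, tChain_succ hj F, opT_smul (fun e => by simp [Fin.ext_iff] at e),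
      tChain_smul j]

theorem dPlus_add {k : ℕ} (F G : V k) : dPlus (F + G) = dPlus F + dPlus G := by
  unfold dPlus
  rw [map_add, tChain_add]

theorem dPlus_smul {k : ℕ} (r : V 0) (F : V k) :
    dPlus (eScalar r * F) = eScalar r * dPlus F := by
  unfold dPlus
  rw [map_mul, eScalar_rename, tChain_smul]

theorem dMinus_add {k : ℕ} (F G : V (k + 1)) : dMinus (F + G) = dMinus F + dMinus G := by
  rw [dMinus, map_add]
  exact Polynomial.sum_add_index _ _ _ (fun _ => zero_mul _) (fun _ _ _ => add_mul _ _ _)

theorem splitLast_eScalar {k : ℕ} (r : V 0) :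
    splitLast (eScalar r : V (k + 1)) = Polynomial.C (eScalar r : V k) := by
  have e : (splitLast.toRingHom.comp (eScalar : V 0 →ₐ[Polynomial ℤ] V (k + 1)).toRingHom) =
      Polynomial.C.comp (eScalar : V 0 →ₐ[Polynomial ℤ] V k).toRingHom := by
    refine MvPolynomial.ringHom_ext (fun c => ?_) fun i => ?_
    · simp [splitLast, eScalar]
    · rcases i with j | i
      · simp [splitLast, eScalar]
      · exact i.elim0
  exact RingHom.congr_fun e r

theorem dMinus_smul {k : ℕ} (r : V 0) (F : V (k + 1)) :
    dMinus (eScalar r * F) = eScalar r * dMinus F := by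
  rw [dMinus, map_mul, splitLast_eScalar, dMinus]
  generalize splitLast F = p
  induction p using Polynomial.induction_on' with
  | add p p' hp hp' =>
    rw [mul_add, Polynomial.sum_add_index _ _ _ (fun _ => zero_mul _) (fun _ _ _ => add_mul _ _ _),
      hp, hp', Polynomial.sum_add_index _ _ _ (fun _ => zero_mul _) (fun _ _ _ => add_mul _ _ _),
      mul_add]
  | monomial n a =>
    simp [Polynomial.C_mul_monomial, Polynomial.sum_monomial_index, mul_assoc]

end Vale.Agent.P066
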