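import Vale.Agent.P066.EvalInj
import Vale.Agent.P066.Linear

/-!
Realizable elements, and the operator `T_i + q` on states.

An element of `V k` is realizable if its values are those of a state with the exchange invariant in
every number of colours.  Realizable elements contain `1` and are closed under sums, multiples by
`ℤ[q][e]`, `dPlus`, `dMinus` and `T_i + q`.
-/

noncomputable section

namespace Vale.Agent.P066

open Finset MvPolynomial

variable {N : ℕ}

/-- The invariant, with the exchange written as a map of the list. -/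
theorem Exch.rel_map {S : St N} (h : Exch S) {a b : Fin N} (hab : b.1 = a.1 + 1)
    {c : List (Fin N)} (hc : c.Nodup) (ha : a ∈ c)
    (hb : b ∈ c → c.idxOf b < c.idxOf a) :
    Rel a b (S c) (S (c.map (Equiv.swap a b))) := by
  obtain ⟨l₁, l₂, rfl⟩ := List.append_of_mem ha
  have hne : a ≠ b := fun e => by rw [e] at hab; omega
  have hnd := List.nodup_middle.1 hc
  obtain ⟨hal, hl⟩ := List.nodup_cons.1 hnd
  simp only [List.mem_append, not_or] at hal
  have hfix : ∀ l : List (Fin N), a ∉ l → b ∉ l → l.map (Equiv.swap a b) = l := fun l h1 h2 =>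
    (List.map_congr_left fun x hx =>
      Equiv.swap_apply_of_ne_of_ne (fun (e : x = a) => h1 (e ▸ hx)) (fun (e : x = b) => h2 (e ▸ hx))).trans l.map_id
  by_cases hbm : b ∈ l₁ ++ a :: l₂
  · have hlt := hb hbm
    rw [List.idxOf_append_of_notMem hal.1, List.idxOf_cons_self, Nat.add_zero] at hlt
    have hb1 : b ∈ l₁ := by
      by_contra hn
      rw [List.idxOf_append_of_notMem hn] at hlt
      omega
    obtain ⟨u, v, rfl⟩ := List.append_of_mem hb1
    have h2 : (u ++ b :: v ++ a :: l₂).Nodup := hc
    have hb2 := (List.nodup_middle (l₁ := u) (a := b) (l₂ := v ++ a :: l₂)).1 (by simpa using h2)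
    obtain ⟨hbl, -⟩ := List.nodup_cons.1 hb2
    simp only [List.mem_append, List.mem_cons, not_or] at hal hbl
    simp only [List.map_append, List.map_cons, Equiv.swap_apply_left, Equiv.swap_apply_right,
      hfix u hal.1.1 hbl.1, hfix v hal.1.2.2 hbl.2.1, hfix l₂ hal.2 hbl.2.2.2]
    exact h.two a b hab u v l₂ h2
  · have hbm' := hbm
    simp only [List.mem_append, List.mem_cons, not_or] at hbm'
    simp only [List.map_append, List.map_cons, Equiv.swap_apply_left,
      hfix l₁ hal.1 hbm'.1, hfix l₂ hal.2 hbm'.2.2]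
    exact h.one a b hab l₁ l₂ hc hbm

/-- The invariant from its two forms. -/
theorem Exch.mk' {S : St N}
    (h0 : ∀ a b : Fin N, b.1 = a.1 + 1 → ∀ c : List (Fin N), c.Nodup → a ∉ c → b ∉ c →
      swapX a b (S c) = S c)
    (h1 : ∀ a b : Fin N, b.1 = a.1 + 1 → ∀ c : List (Fin N), c.Nodup → a ∈ c →
      (b ∈ c → c.idxOf b < c.idxOf a) → Rel a b (S c) (S (c.map (Equiv.swap a b)))) :
    Exch S := by
  have hfix : ∀ (a b : Fin N) (l : List (Fin N)), a ∉ l → b ∉ l →
      l.map (Equiv.swap a b) = l := fun a b l h1 h2 =>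
    (List.map_congr_left fun x hx =>
      Equiv.swap_apply_of_ne_of_ne (fun (e : x = a) => h1 (e ▸ hx)) (fun (e : x = b) => h2 (e ▸ hx))).trans l.map_id
  refine ⟨h0, fun a b hab l₁ l₂ hc hb => ?_, fun a b hab l₁ l₂ l₃ hc => ?_⟩
  · have := h1 a b hab _ hc (by simp) fun h => absurd h hb
    obtain ⟨hal, -⟩ := List.nodup_cons.1 (List.nodup_middle.1 hc)
    simp only [List.mem_append, List.mem_cons, not_or] at hal hb
    simpa [hfix a b l₁ hal.1 hb.1, hfix a b l₂ hal.2 hb.2.2] using this
  · obtain ⟨hal, -⟩ := List.nodup_cons.1 ((List.nodup_middle (l₁ := l₁ ++ b :: l₂) (a := a) (l₂ := l₃)).1 hc)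
    obtain ⟨hbl, -⟩ := List.nodup_cons.1 ((List.nodup_middle (l₁ := l₁) (a := b)
      (l₂ := l₂ ++ a :: l₃)).1 (by simpa using hc))
    simp only [List.mem_append, List.mem_cons, not_or] at hal hbl
    have := h1 a b hab _ hc (by simp) fun _ => by
      have ea : (l₁ ++ b :: l₂ ++ a :: l₃).idxOf a = (l₁ ++ b :: l₂).length := by
        rw [List.idxOf_append_of_notMem (by simp [hal.1]), List.idxOf_cons_self, Nat.add_zero]
      have eb : (l₁ ++ b :: l₂ ++ a :: l₃).idxOf b = l₁.length := by
        rw [List.append_assoc, List.idxOf_append_of_notMem hbl.1, List.cons_append,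
          List.idxOf_cons_self, Nat.add_zero]
      rw [ea, eb]
      simp
    simpa [hfix a b l₁ hal.1.1 hbl.1, hfix a b l₂ hal.1.2.2 hbl.2.1,
      hfix a b l₃ hal.2 hbl.2.2.2] using this

/-- The weight of an ordered pair of colours. -/
def pairW (x y : Fin N) : R N := if x < y then C qq else 1

/-- The state `(T_i + q) S`. -/
def sHecke (i : ℕ) (S : St N) : St N := fun c =>
  match (c)[i]?, (c)[i + 1]? with
  | some x, some y => pairW x y * S (c.map (Equiv.swap x y)) + pairW y x * S c
  | _, _ => (1 + C qq) * S c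

theorem sHecke_of_getElem {i : ℕ} (S : St N) {c : List (Fin N)} {x y : Fin N}
    (hx : (c)[i]? = some x) (hy : (c)[i + 1]? = some y) :
    sHecke i S c = pairW x y * S (c.map (Equiv.swap x y)) + pairW y x * S c := by
  simp [sHecke, hx, hy]

theorem swapX_pairW (a b x y : Fin N) : swapX a b (pairW x y) = pairW x y := by
  unfold pairW
  split
  · exact swapX_C a b _
  · exact map_one _

theorem pairW_swap {a b x y : Fin N} (hab : b.1 = a.1 + 1) (h : ¬ (x = a ∧ y = b))
    (h' : ¬ (x = b ∧ y = a)) :
    pairW (Equiv.swap a b x) (Equiv.swap a b y) = pairW x y := by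
  have key : Equiv.swap a b x < Equiv.swap a b y ↔ x < y := by
    simp only [Fin.ext_iff] at h h'
    simp only [Equiv.swap_apply_def, Fin.ext_iff]
    split_ifs <;> simp only [Fin.lt_def] <;> omega
  simp only [pairW, key]

theorem nodup_map_swap {c : List (Fin N)} (hc : c.Nodup) (x y : Fin N) :
    (c.map (Equiv.swap x y)).Nodup :=
  hc.map (Equiv.injective _)

theorem idxOf_map_equiv (σ : Equiv.Perm (Fin N)) (c : List (Fin N)) (z : Fin N) :
    (c.map σ).idxOf (σ z) = c.idxOf z := by
  induction c with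
  | nil => simp
  | cons w t ih =>
    by_cases h : w = z
    · subst h; simp
    · rw [List.map_cons, List.idxOf_cons_ne _ h,
        List.idxOf_cons_ne _ (fun e => h (σ.injective e)), ih]

theorem Exch.hecke {S : St N} (h : Exch S) (i : ℕ) : Exch (sHecke i S) := by
  have hq : ∀ (a b : Fin N), swapX a b ((1 : R N) + C qq) = 1 + C qq := fun a b => by
    rw [map_add, map_one, swapX_C]
  refine Exch.mk' (fun a b hab c hc ha hb => ?_) fun a b hab c hc ha hb => ?_
  · rcases hx : (c)[i]? with _ | x
    · simp only [sHecke, hx, map_mul, hq, h.none a b hab c hc ha hb]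
    rcases hy : (c)[i + 1]? with _ | y
    · simp only [sHecke, hx, hy, map_mul, hq, h.none a b hab c hc ha hb]
    have hxm := List.mem_of_getElem? hx
    have hym := List.mem_of_getElem? hy
    have hm : ∀ z, z ∉ c → z ∉ c.map (Equiv.swap x y) := fun z hz hmem => by
      obtain ⟨w, hw, e⟩ := List.mem_map.1 hmem
      rw [Equiv.swap_apply_def] at e
      split_ifs at e <;> subst e <;> first | exact hz hxm | exact hz hym | exact hz hw
    rw [sHecke_of_getElem S hx hy, map_add, map_mul, map_mul, swapX_pairW, swapX_pairW,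
      h.none a b hab _ (nodup_map_swap hc x y) (hm a ha) (hm b hb), h.none a b hab c hc ha hb]
  · set σ := Equiv.swap a b with hσ
    rcases hx : (c)[i]? with _ | x
    · have hx' : (c.map σ)[i]? = Option.none := by rw [List.getElem?_map, hx]; rfl
      simp only [sHecke, hx, hx']
      exact Rel.smul (hq a b) (h.rel_map hab hc ha hb)
    rcases hy : (c)[i + 1]? with _ | y
    · have hx' : (c.map σ)[i]? = some (σ x) := by rw [List.getElem?_map, hx]; rfl
      have hy' : (c.map σ)[i + 1]? = Option.none := by rw [List.getElem?_map, hy]; rfl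
      simp only [sHecke, hx, hy, hx', hy']
      exact Rel.smul (hq a b) (h.rel_map hab hc ha hb)
    have hx' : (c.map σ)[i]? = some (σ x) := by rw [List.getElem?_map, hx]; rfl
    have hy' : (c.map σ)[i + 1]? = some (σ y) := by rw [List.getElem?_map, hy]; rfl
    rw [sHecke_of_getElem S hx hy, sHecke_of_getElem S hx' hy']
    have hcomp : (c.map σ).map (Equiv.swap (σ x) (σ y)) = (c.map (Equiv.swap x y)).map σ := by
      rw [List.map_map, List.map_map]
      refine List.map_congr_left fun z _ => ?_
      simp only [Function.comp_apply]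
      rw [Equiv.swap_apply_apply]
      simp [Equiv.Perm.mul_apply]
    rw [hcomp]
    have hne : a ≠ b := fun e => by rw [e] at hab; omega
    have hR := h.rel_map hab hc ha hb
    by_cases hpair : (x = b ∧ y = a)
    · obtain ⟨rfl, rfl⟩ := hpair
      have e1 : Equiv.swap x y = σ := Equiv.swap_comm x y
      have e2 : (c.map σ).map σ = c := by simp [hσ, List.map_map, Function.comp_def]
      have hlt : y < x := by rw [Fin.lt_def]; omega
      obtain ⟨K, L, h1, h2, eA, eB⟩ := hR
      rw [e1, e2, hσ, Equiv.swap_apply_right, Equiv.swap_apply_left, ← hσ, eA, eB]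
      simp only [pairW, if_pos hlt, if_neg (not_lt.2 hlt.le), one_mul]
      refine ⟨(1 + C qq) * K + C qq * (X y + X x) * L, 0, ?_, map_zero _, by ring, by ring⟩
      simp only [map_add, map_mul, map_one, swapX_C, swapX_left, swapX_right, h1, h2]
      ring
    · have hpair' : ¬ (x = a ∧ y = b) := by
        rintro ⟨rfl, rfl⟩
        obtain ⟨hi, hxi⟩ := List.getElem?_eq_some_iff.1 hx
        obtain ⟨hi', hyi⟩ := List.getElem?_eq_some_iff.1 hy
        have := hb (List.mem_of_getElem? hy)
        rw [← hxi, ← hyi, hc.idxOf_getElem, hc.idxOf_getElem] at this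
        omega
      rw [pairW_swap hab hpair' hpair,
        pairW_swap hab (fun e => hpair ⟨e.2, e.1⟩) (fun e => hpair' ⟨e.2, e.1⟩)]
      refine Rel.add ?_ (Rel.smul (swapX_pairW _ _ _ _) hR)
      refine Rel.smul (swapX_pairW _ _ _ _) ?_
      have hxy : ∀ z, z ∈ c → z ∈ c.map (Equiv.swap x y) := fun z hz => by
        refine List.mem_map.2 ⟨Equiv.swap x y z, ?_, Equiv.swap_apply_self x y z⟩
        rw [Equiv.swap_apply_def]
        split_ifs
        · exact List.mem_of_getElem? hy
        · exact List.mem_of_getElem? hx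
        · exact hz
      refine h.rel_map hab (nodup_map_swap hc x y) (hxy a ha) fun hbm => ?_
      have hbc : b ∈ c := by
        obtain ⟨w, hw, e⟩ := List.mem_map.1 hbm
        rw [Equiv.swap_apply_def] at e
        split_ifs at e <;> subst e <;>
          first | exact List.mem_of_getElem? hy | exact List.mem_of_getElem? hx | exact hw
      have hlt := hb hbc
      obtain ⟨hi, hxi⟩ := List.getElem?_eq_some_iff.1 hx
      obtain ⟨hi', hyi⟩ := List.getElem?_eq_some_iff.1 hy
      have ix : c.idxOf x = i := by rw [← hxi, hc.idxOf_getElem]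
      have iy : c.idxOf y = i + 1 := by rw [← hyi, hc.idxOf_getElem]
      have hidx : ∀ z : Fin N, (c.map (Equiv.swap x y)).idxOf z = c.idxOf (Equiv.swap x y z) :=
        fun z => by conv_lhs => rw [← Equiv.swap_apply_self x y z]
                    exact idxOf_map_equiv _ _ _
      have inj : ∀ z w : Fin N, z ∈ c → c.idxOf z = c.idxOf w → z = w := fun z w hz e =>
        (List.idxOf_inj hz).1 e
      rw [hidx, hidx, Equiv.swap_apply_def, Equiv.swap_apply_def]
      have nax := fun (hh : a ≠ x) => mt (inj a x ha) hh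
      have nay := fun (hh : a ≠ y) => mt (inj a y ha) hh
      have nbx := fun (hh : b ≠ x) => mt (inj b x hbc) hh
      have nby := fun (hh : b ≠ y) => mt (inj b y hbc) hh
      split_ifs <;> subst_vars <;> omega

theorem seg_getElem? {a b i : ℕ} (hi : a + i < b) (hb : b ≤ N) :
    (seg N a b)[i]? = some ⟨a + i, Nat.lt_of_lt_of_le hi hb⟩ := by
  rw [seg_append (Nat.le_add_right a i) hi.le, seg_cons hi (Nat.lt_of_lt_of_le hi hb),
    List.getElem?_append_right (by rw [length_seg (by omega)]; omega),
    length_seg (by omega), Nat.add_sub_cancel_left, Nat.sub_self, List.getElem?_cons_zero]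

/-- `opT` from the Hecke relation. -/
theorem evalV_opT' {k : ℕ} (hk : k ≤ N) {a b : Fin k} (hab : a ≠ b) {F : V k} {B : R N}
    (h : (X (Fin.castLE hk b) - X (Fin.castLE hk a)) *
        (B - swapX (Fin.castLE hk a) (Fin.castLE hk b) (evalV N k F)) =
      (C qq - 1) * X (Fin.castLE hk a) *
        (evalV N k F - swapX (Fin.castLE hk a) (Fin.castLE hk b) (evalV N k F))) :
    evalV N k (opT a b F) = B := by
  have hne : (X (Fin.castLE hk b) - X (Fin.castLE hk a) : R N) ≠ 0 :=
    X_sub_X_ne fun e => hab (Fin.castLE_injective hk e)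
  have hd := congrArg (evalV N k) (divDiff_spec a b F)
  have hx : ∀ i : Fin k, xv N i.1 = X (Fin.castLE hk i) := fun i =>
    (xv_eq (Nat.lt_of_lt_of_le i.2 hk)).trans rfl
  simp only [map_sub, map_mul, evalV_y, evalV_swapY hk, hx] at hd
  refine mul_left_cancel₀ hne ?_
  have hC : evalV N k (C (qq - 1)) = C qq - 1 := by simp [evalV]
  rw [opT, map_add, map_mul, map_mul, hC, evalV_y, hx, evalV_swapY hk, mul_add]
  linear_combination -h - (C qq - 1) * X (Fin.castLE hk a) * hd

theorem evalV_C {k : ℕ} (c : Polynomial ℤ) : evalV N k (C c) = C c := by simp [evalV]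

/-- `T_i + q` on `V k`, for the active positions `i, i + 1` (counted from the newest). -/
def heckeY {k : ℕ} (i : ℕ) (hi : i + 1 < k) (F : V k) : V k :=
  opT (⟨i, Nat.lt_of_succ_lt hi⟩ : Fin k) ⟨i + 1, hi⟩ F + C qq * F

theorem Rep.hecke {k : ℕ} {F : V k} {S : St N} (hS : Exch S) (h : Rep N F S) {i : ℕ}
    (hi : i + 1 < k) : Rep N (heckeY i hi F) (sHecke i S) := by
  intro hk
  set a : Fin N := ⟨i, by omega⟩ with ha
  set b : Fin N := ⟨i + 1, by omega⟩ with hb
  have ga : (seg N 0 k)[i]? = some a := by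
    rw [seg_getElem? (by omega) hk]
    simp [ha]
  have gb : (seg N 0 k)[i + 1]? = some b := by
    rw [seg_getElem? (by omega) hk]
    simp [hb]
  have hnd : ((seg N 0 k).map (Equiv.swap a b)).Nodup := nodup_map_swap (nodup_seg _ _) a b
  have hR := hS.rel_map (a := a) (b := b) (by simp [ha, hb]) hnd
    (List.mem_map.2 ⟨b, List.mem_of_getElem? gb, Equiv.swap_apply_right a b⟩) fun _ => by
      have e : ∀ z, ((seg N 0 k).map (Equiv.swap a b)).idxOf z =
          (seg N 0 k).idxOf (Equiv.swap a b z) := fun z => by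
        conv_lhs => rw [← Equiv.swap_apply_self a b z]
        exact idxOf_map_equiv _ _ _
      obtain ⟨hia, ea⟩ := List.getElem?_eq_some_iff.1 ga
      obtain ⟨hib, eb⟩ := List.getElem?_eq_some_iff.1 gb
      rw [e, e, Equiv.swap_apply_left, Equiv.swap_apply_right, ← ea, ← eb,
        (nodup_seg 0 k).idxOf_getElem,
        (nodup_seg 0 k).idxOf_getElem]
      omega
  have hmm : ((seg N 0 k).map (Equiv.swap a b)).map (Equiv.swap a b) = seg N 0 k := by
    simp [List.map_map, Function.comp_def]
  rw [hmm] at hR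
  have hab' : a < b := by simp [ha, hb, Fin.lt_def]
  rw [heckeY, map_add, map_mul, evalV_C, sHecke_of_getElem S ga gb, h hk]
  simp only [pairW, if_pos hab', if_neg (not_lt.2 hab'.le), one_mul]
  obtain ⟨K, L, h1, h2, eA, eB⟩ := hR
  rw [evalV_opT' hk (B := C qq * S ((seg N 0 k).map (Equiv.swap a b)) +
    (1 - C qq) * S (seg N 0 k)) (fun e => by simp [Fin.ext_iff] at e)]
  · ring
  · rw [h hk, show Fin.castLE hk ⟨i, Nat.lt_of_succ_lt hi⟩ = a from rfl,
      show Fin.castLE hk ⟨i + 1, hi⟩ = b from rfl, eA, eB]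
    simp only [map_add, map_mul, swapX_C, swapX_left, h1, h2]
    ring

/-- A multiple of a state by a symmetric polynomial. -/
theorem Exch.smul {S : St N} (h : Exch S) {P : R N} (hP : ∀ a b : Fin N, swapX a b P = P) :
    Exch (fun c => P * S c) :=
  ⟨fun a b hab c hc ha hb => by rw [map_mul, hP, h.none a b hab c hc ha hb],
    fun a b hab l₁ l₂ hc hb => Rel.smul (hP a b) (h.one a b hab l₁ l₂ hc hb),
    fun a b hab l₁ l₂ l₃ hc => Rel.smul (hP a b) (h.two a b hab l₁ l₂ l₃ hc)⟩

theorem Exch.add {S S' : St N} (h : Exch S) (h' : Exch S') : Exch (fun c => S c + S' c) :=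
  ⟨fun a b hab c hc ha hb => by
      rw [map_add, h.none a b hab c hc ha hb, h'.none a b hab c hc ha hb],
    fun a b hab l₁ l₂ hc hb => (h.one a b hab l₁ l₂ hc hb).add (h'.one a b hab l₁ l₂ hc hb),
    fun a b hab l₁ l₂ l₃ hc => (h.two a b hab l₁ l₂ l₃ hc).add (h'.two a b hab l₁ l₂ l₃ hc)⟩

/-- The values of `F` come from a state in every number of colours. -/
def Realizable {k : ℕ} (F : V k) : Prop := ∀ N, ∃ S : St N, Exch S ∧ Rep N F S

theorem realizable_one : Realizable (1 : V 0) := fun _ => ⟨_, exch_one, rep_one⟩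

theorem Realizable.dPlus {k : ℕ} {F : V k} (h : Realizable F) : Realizable (dPlus F) := fun N => by
  obtain ⟨S, hE, hR⟩ := h N
  exact ⟨sPlus S, hE.plus, hR.plus hE⟩

theorem Realizable.dMinus {k : ℕ} {F : V (k + 1)} (h : Realizable F) : Realizable (dMinus F) :=
  fun N => by
    obtain ⟨S, hE, hR⟩ := h N
    exact ⟨sMinus S, hE.minus, hR.minus hE⟩

theorem Realizable.heckeY {k : ℕ} {F : V k} (h : Realizable F) {i : ℕ} (hi : i + 1 < k) :
    Realizable (heckeY i hi F) := fun N => by
  obtain ⟨S, hE, hR⟩ := h N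
  exact ⟨sHecke i S, hE.hecke i, hR.hecke hE hi⟩

theorem evalV_eScalar (k : ℕ) (r : V 0) : evalV N k (eScalar r) = evalV N 0 r := by
  rw [← AlgHom.comp_apply]
  congr 1
  refine MvPolynomial.algHom_ext fun i => ?_
  rcases i with j | i
  · simp [evalV, eScalar]
  · exact i.elim0

theorem swapX_evalV_zero (a b : Fin N) (r : V 0) :
    swapX a b (evalV N 0 r) = evalV N 0 r := by
  rw [← AlgHom.comp_apply]
  congr 1
  refine MvPolynomial.algHom_ext fun i => ?_
  rcases i with j | i
  · simp [evalV, swapX_esymm]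
  · exact i.elim0

theorem Realizable.smul {k : ℕ} {F : V k} (h : Realizable F) (r : V 0) :
    Realizable (eScalar r * F) := fun N => by
  obtain ⟨S, hE, hR⟩ := h N
  exact ⟨fun c => evalV N 0 r * S c, hE.smul fun a b => swapX_evalV_zero a b r,
    fun hk => by rw [map_mul, evalV_eScalar, hR hk]⟩

theorem Realizable.add {k : ℕ} {F G : V k} (h : Realizable F) (h' : Realizable G) :
    Realizable (F + G) := fun N => by
  obtain ⟨S, hE, hR⟩ := h N
  obtain ⟨S', hE', hR'⟩ := h' N
  exact ⟨fun c => S c + S' c, hE.add hE', fun hk => by rw [map_add, hR hk, hR' hk]⟩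

theorem Reach.realizable {K k : ℕ} {F : V k} (h : Reach K k F) : Realizable F := by
  induction h with
  | one => exact realizable_one
  | plus _ _ ih => exact ih.dPlus
  | minus _ ih => exact ih.dMinus

end Vale.Agent.P066
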