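import Vale.Agent.P066.Realize

/-!
The relations between `dPlus`, `dMinus` and `T_i + q` on realizable elements.
-/

noncomputable section

namespace Vale.Agent.P066

open Finset MvPolynomial

variable {N : ℕ}

/-- `E = dMinus ∘ dPlus`. -/
def opE {k : ℕ} (F : V k) : V k := dMinus (dPlus F)

theorem Realizable.opE {k : ℕ} {F : V k} (h : Realizable F) : Realizable (opE F) :=
  h.dPlus.dMinus

/-- The colours outside a list. -/
def outside (c : List (Fin N)) : Finset (Fin N) := univ.filter fun j => j ∉ c

theorem outside_concat (c : List (Fin N)) (j : Fin N) :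
    outside (c ++ [j]) = (outside c).erase j := by
  ext x
  simp [outside, and_comm]

theorem outside_cons (a : Fin N) (c : List (Fin N)) :
    outside (a :: c) = (outside c).erase a := by
  ext x
  simp [outside]

theorem weight_cons (a : Fin N) (c : List (Fin N)) (j : Fin N) :
    weight (a :: c) j = pairW j a * weight c j := by
  rw [weight, weight, List.countP_cons, pairW]
  by_cases h : j < a
  · rw [if_pos h, if_pos (by simpa using h), pow_succ', C_mul]
  · rw [if_neg h, if_neg (by simpa using h), Nat.add_zero, one_mul]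

theorem weight_concat (c : List (Fin N)) (a j : Fin N) :
    weight (c ++ [a]) j = pairW j a * weight c j := by
  rw [weight, List.countP_append, List.countP_cons, List.countP_nil, Nat.zero_add, pairW, weight]
  by_cases h : j < a
  · rw [if_pos h, if_pos (by simpa using h), pow_succ', C_mul]
  · rw [if_neg h, if_neg (by simpa using h), Nat.add_zero, one_mul]

theorem pairW_mul_pairW {x y : Fin N} (h : x ≠ y) : pairW x y * pairW y x = C qq := by
  rcases lt_or_gt_of_ne h with hxy | hxy
  · simp [pairW, hxy, hxy.not_gt]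
  · simp [pairW, hxy, hxy.not_gt]

theorem sum_erase_eq_ite {ι M : Type*} [DecidableEq ι] [AddCommMonoid M] (J : Finset ι) (a : ι)
    (f : ι → M) : ∑ j ∈ J.erase a, f j = ∑ j ∈ J, if j = a then 0 else f j := by
  rw [← filter_ne' J a, sum_filter]
  exact sum_congr rfl fun j _ => by split_ifs <;> simp_all

/-- Ordered pairs may be reversed. -/
theorem sum_pairs_comm (J : Finset (Fin N)) (f : Fin N → Fin N → R N) :
    ∑ j ∈ J, ∑ l ∈ J.erase j, f j l = ∑ j ∈ J, ∑ l ∈ J.erase j, f l j := by
  refine sum_comm' fun x y => ?_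
  simp only [mem_erase]
  tauto

theorem map_swap_of_notMem {x y : Fin N} {l : List (Fin N)} (hx : x ∉ l) (hy : y ∉ l) :
    l.map (Equiv.swap x y) = l :=
  (List.map_congr_left fun z hz => Equiv.swap_apply_of_ne_of_ne (fun (e : z = x) => hx (e ▸ hz))
    (fun (e : z = y) => hy (e ▸ hz))).trans l.map_id

theorem map_swap_concat_two {j l : Fin N} {r : List (Fin N)} (hj : j ∉ r) (hl : l ∉ r) :
    (r ++ [j] ++ [l]).map (Equiv.swap j l) = r ++ [l] ++ [j] := by
  simp [map_swap_of_notMem hj hl]

theorem sHecke_concat_two (S : St N) {j l : Fin N} {r : List (Fin N)} (hj : j ∉ r) (hl : l ∉ r) :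
    sHecke r.length S (r ++ [j] ++ [l]) =
      pairW j l * S (r ++ [l] ++ [j]) + pairW l j * S (r ++ [j] ++ [l]) := by
  rw [sHecke_of_getElem S (x := j) (y := l) (by simp) (by simp), map_swap_concat_two hj hl]

theorem sHecke_cons_two (S : St N) {a b : Fin N} {r : List (Fin N)} (ha : a ∉ r) (hb : b ∉ r) :
    sHecke 0 S (a :: b :: r) = pairW a b * S (b :: a :: r) + pairW b a * S (a :: b :: r) := by
  rw [sHecke_of_getElem S (x := a) (y := b) rfl rfl]
  simp [map_swap_of_notMem ha hb]

/-- The shift commutes with `T_i + q`. -/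
theorem sHecke_sPlus (i : ℕ) (S : St N) (z : Fin N) (t : List (Fin N)) :
    sHecke (i + 1) (sPlus S) (z :: t) = sPlus (sHecke i S) (z :: t) := by
  simp only [sPlus, sHecke, List.getElem?_cons_succ, List.tail_cons, List.map_cons]

/-- Retirement commutes with `T_i + q` away from the oldest vertex. -/
theorem sHecke_sMinus (S : St N) {i : ℕ} {c : List (Fin N)} (hc : c.Nodup)
    (hi : i + 1 < c.length) : sHecke i (sMinus S) c = sMinus (sHecke i S) c := by
  obtain ⟨x, hx⟩ : ∃ x, (c)[i]? = some x := ⟨_, List.getElem?_eq_getElem (Nat.lt_of_succ_lt hi)⟩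
  obtain ⟨y, hy⟩ : ∃ y, (c)[i + 1]? = some y := ⟨_, List.getElem?_eq_getElem hi⟩
  have hxm := List.mem_of_getElem? hx
  have hym := List.mem_of_getElem? hy
  have hperm : (c.map (Equiv.swap x y)).Perm c := by
    refine (List.perm_ext_iff_of_nodup (nodup_map_swap hc x y) hc).2 fun z => ?_
    have hmap : ∀ w, w ∈ c → Equiv.swap x y w ∈ c := fun w hw => by
      rw [Equiv.swap_apply_def]
      split_ifs <;> assumption
    constructor
    · intro hz
      obtain ⟨w, hw, rfl⟩ := List.mem_map.1 hz
      exact hmap w hw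
    · exact fun hz => List.mem_map.2 ⟨_, hmap z hz, Equiv.swap_apply_self x y z⟩
  rw [sHecke_of_getElem _ hx hy, sMinus, sMinus, sMinus, mul_sum, mul_sum]
  have hJ : univ.filter (fun j => j ∉ c.map (Equiv.swap x y)) = univ.filter (fun j => j ∉ c) := by
    ext j
    simp only [mem_filter, mem_univ, true_and, hperm.mem_iff]
  rw [hJ, ← sum_add_distrib]
  refine sum_congr rfl fun j hj => ?_
  have hjc : j ∉ c := (mem_filter.1 hj).2
  have hw : weight (c.map (Equiv.swap x y)) j = weight c j := by
    rw [weight, weight, hperm.countP_eq]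
  have hxj : j ≠ x := fun e => hjc (e ▸ hxm)
  have hyj : j ≠ y := fun e => hjc (e ▸ hym)
  rw [sHecke_of_getElem S (c := c ++ [j]) (x := x) (y := y)
    (by rw [List.getElem?_append_left (by omega)]; exact hx)
    (by rw [List.getElem?_append_left hi]; exact hy), hw, List.map_append, List.map_singleton,
    Equiv.swap_apply_of_ne_of_ne hxj hyj]
  ring

theorem sHecke_sPlus_sPlus (S : St N) {a b : Fin N} {r : List (Fin N)} (hab : a ≠ b) (ha : a ∉ r)
    (hb : b ∉ r) :
    sHecke 0 (sPlus (sPlus S)) (a :: b :: r) = (1 + C qq) * sPlus (sPlus S) (a :: b :: r) := by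
  rw [sHecke_cons_two _ ha hb]
  simp only [sPlus, List.tail_cons, pairW]
  rcases lt_or_gt_of_ne hab with h | h <;> simp [h, h.not_gt] <;> ring

/-- The value after two retirements. -/
theorem sMinus_sMinus (S : St N) (c : List (Fin N)) :
    sMinus (sMinus S) c = ∑ j ∈ outside c, ∑ l ∈ (outside c).erase j,
      weight c j * X j * (weight c l * X l) * (pairW l j * S (c ++ [j] ++ [l])) := by
  rw [sMinus]
  refine sum_congr rfl fun j _ => ?_
  rw [sMinus, ← outside, outside_concat, mul_sum, mul_sum]
  refine sum_congr rfl fun l _ => ?_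
  rw [weight_concat]
  ring

theorem mem_outside {c : List (Fin N)} {j : Fin N} : j ∈ outside c ↔ j ∉ c := by simp [outside]

theorem sMinus_sMinus_sHecke (S : St N) (c : List (Fin N)) :
    sMinus (sMinus (sHecke c.length S)) c = (1 + C qq) * sMinus (sMinus S) c := by
  set B : Fin N → Fin N → R N := fun j l => weight c j * X j * (weight c l * X l) with hB
  have e : sMinus (sMinus (sHecke c.length S)) c =
      (∑ j ∈ outside c, ∑ l ∈ (outside c).erase j,
        B j l * (pairW l j * pairW j l) * S (c ++ [l] ++ [j])) +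
      ∑ j ∈ outside c, ∑ l ∈ (outside c).erase j,
        B j l * (pairW l j * pairW l j) * S (c ++ [j] ++ [l]) := by
    rw [sMinus_sMinus, ← sum_add_distrib]
    refine sum_congr rfl fun j hj => ?_
    rw [← sum_add_distrib]
    refine sum_congr rfl fun l hl => ?_
    rw [sHecke_concat_two S (mem_outside.1 hj) (mem_outside.1 (mem_of_mem_erase hl)), hB]
    ring
  rw [e, sum_pairs_comm, sMinus_sMinus, mul_sum, ← sum_add_distrib]
  refine sum_congr rfl fun j _ => ?_
  rw [mul_sum, ← sum_add_distrib]
  refine sum_congr rfl fun l hl => ?_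
  rcases lt_or_gt_of_ne (mem_erase.1 hl).1 with h | h <;> simp [hB, pairW, h, h.not_gt] <;> ring

/-- The scalar identity of the relation `D E = E D C - q U D D`. -/
theorem pairW_three {a j l : Fin N} (hjl : l ≠ j) :
    (if j = a then 0 else if l = a then 0 else pairW j a * pairW l a * pairW l j) +
        C qq * pairW l j =
      (if j = a then 0 else pairW j a * (pairW l j * pairW l j)) +
        (if l = a then 0 else pairW l a * C qq) := by
  rcases eq_or_ne j a with rfl | hja
  · simp only [if_true, if_neg hjl]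
    ring
  rcases eq_or_ne l a with rfl | hla
  · simp only [if_true, if_neg hja]
    linear_combination -(pairW l j) * pairW_mul_pairW hja
  simp only [if_neg hja, if_neg hla]
  rcases lt_or_gt_of_ne hja with h1 | h1 <;> rcases lt_or_gt_of_ne hla with h2 | h2 <;>
    rcases lt_or_gt_of_ne hjl with h3 | h3 <;>
    simp [pairW, h1, h1.not_gt, h2, h2.not_gt, h3, h3.not_gt] <;>
    first | ring1 | (exfalso; simp only [Fin.lt_def] at *; omega)

theorem state_DE (S : St N) (a : Fin N) (r : List (Fin N)) :
    sMinus (sMinus (sPlus S)) (a :: r) + C qq * sPlus (sMinus (sMinus S)) (a :: r) =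
      sMinus (sPlus (sMinus (sHecke r.length S))) (a :: r) := by
  set J := outside r with hJ
  set B : Fin N → Fin N → R N := fun j l => weight r j * X j * (weight r l * X l) with hB
  have e1 : sMinus (sMinus (sPlus S)) (a :: r) = ∑ j ∈ J, ∑ l ∈ J.erase j,
      B j l * (if j = a then 0 else if l = a then 0 else pairW j a * pairW l a * pairW l j) *
        S (r ++ [j] ++ [l]) := by
    rw [sMinus_sMinus, outside_cons, ← hJ, sum_erase_eq_ite]
    refine sum_congr rfl fun j _ => ?_
    split_ifs with hja
    · simp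
    · rw [erase_right_comm, sum_erase_eq_ite]
      refine sum_congr rfl fun l _ => ?_
      split_ifs
      · simp
      · simp only [sPlus, List.cons_append, List.tail_cons, weight_cons, hB]
        ring
  have e2 : sPlus (sMinus (sMinus S)) (a :: r) = ∑ j ∈ J, ∑ l ∈ J.erase j,
      B j l * pairW l j * S (r ++ [j] ++ [l]) := by
    rw [sPlus, List.tail_cons, sMinus_sMinus]
    simp only [hB, mul_assoc, ← hJ]
  have e3 : sMinus (sPlus (sMinus (sHecke r.length S))) (a :: r) =
      (∑ j ∈ J, ∑ l ∈ J.erase j,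
        B j l * (if j = a then 0 else pairW j a * (pairW l j * pairW j l)) * S (r ++ [l] ++ [j])) +
      ∑ j ∈ J, ∑ l ∈ J.erase j,
        B j l * (if j = a then 0 else pairW j a * (pairW l j * pairW l j)) *
          S (r ++ [j] ++ [l]) := by
    rw [sMinus, ← outside, outside_cons, ← hJ, sum_erase_eq_ite, ← sum_add_distrib]
    refine sum_congr rfl fun j hj => ?_
    rw [← sum_add_distrib]
    split_ifs with hja
    · simp
    · rw [sPlus, List.cons_append, List.tail_cons, sMinus, ← outside, outside_concat, ← hJ,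
        mul_sum, mul_sum]
      refine sum_congr rfl fun l hl => ?_
      rw [weight_cons, weight_concat,
        sHecke_concat_two S (mem_outside.1 hj) (mem_outside.1 (mem_of_mem_erase hl)), hB]
      ring
  rw [e1, e2, e3, sum_pairs_comm J (fun j l =>
    B j l * (if j = a then 0 else pairW j a * (pairW l j * pairW j l)) * S (r ++ [l] ++ [j])),
    mul_sum, ← sum_add_distrib, ← sum_add_distrib]
  refine sum_congr rfl fun j _ => ?_
  rw [mul_sum, ← sum_add_distrib, ← sum_add_distrib]
  refine sum_congr rfl fun l hl => ?_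
  have h3 := pairW_three (a := a) (mem_erase.1 hl).1
  have h2 : (if l = a then (0 : R N) else pairW l a * (pairW j l * pairW l j)) =
      (if l = a then 0 else pairW l a * C qq) := by
    rw [pairW_mul_pairW (mem_erase.1 hl).1.symm]
  have hsym : B l j = B j l := by simp only [hB]; ring
  simp only [hsym, h2]
  linear_combination (B j l * S (r ++ [j] ++ [l])) * h3

theorem state_CUE (S : St N) {a b : Fin N} {r : List (Fin N)} (hab : a ≠ b) (ha : a ∉ r)
    (hb : b ∉ r) :
    sHecke 0 (sPlus (sMinus (sPlus S))) (a :: b :: r) =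
      sMinus (sPlus (sPlus S)) (a :: b :: r) + C qq * sPlus (sPlus (sMinus S)) (a :: b :: r) := by
  set J := outside r with hJ
  have e : ∀ z : Fin N, sMinus (sPlus S) (z :: r) =
      ∑ j ∈ J, (if j = z then 0 else pairW j z) * (weight r j * (X j * S (r ++ [j]))) := by
    intro z
    rw [sMinus, ← outside, outside_cons, ← hJ, sum_erase_eq_ite]
    refine sum_congr rfl fun j _ => ?_
    split_ifs
    · simp
    · simp only [sPlus, List.cons_append, List.tail_cons, weight_cons]
      ring
  have e' : sMinus (sPlus (sPlus S)) (a :: b :: r) =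
      ∑ j ∈ J, (if j = a then 0 else if j = b then 0 else pairW j a * pairW j b) *
        (weight r j * (X j * S (r ++ [j]))) := by
    rw [sMinus, ← outside, outside_cons, outside_cons, ← hJ, erase_right_comm, sum_erase_eq_ite,
      sum_erase_eq_ite]
    refine sum_congr rfl fun j _ => ?_
    split_ifs <;> try simp
    simp only [sPlus, List.tail_cons, weight_cons]
    ring
  rw [sHecke_cons_two _ ha hb, e']
  simp only [sPlus, List.tail_cons]
  rw [e a, e b, sMinus, ← outside, ← hJ, mul_sum, mul_sum, mul_sum, ← sum_add_distrib,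
    ← sum_add_distrib]
  refine sum_congr rfl fun j _ => ?_
  have key : pairW a b * (if j = a then 0 else pairW j a) +
      pairW b a * (if j = b then 0 else pairW j b) =
      (if j = a then (0 : R N) else if j = b then 0 else pairW j a * pairW j b) + C qq := by
    rcases eq_or_ne j a with rfl | hja
    · rw [if_neg hab, if_pos rfl, if_pos rfl]
      linear_combination pairW_mul_pairW hab.symm
    rcases eq_or_ne j b with rfl | hjb
    · rw [if_pos rfl, if_neg hab.symm]
      simp [pairW_mul_pairW hab]
    simp only [if_neg hja, if_neg hjb]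
    rcases lt_or_gt_of_ne hja with h1 | h1 <;> rcases lt_or_gt_of_ne hjb with h2 | h2 <;>
      rcases lt_or_gt_of_ne hab with h3 | h3 <;>
      simp [pairW, h1, h1.not_gt, h2, h2.not_gt, h3, h3.not_gt] <;>
      first | ring1 | (exfalso; simp only [Fin.lt_def] at *; omega)
  linear_combination (weight r j * (X j * S (r ++ [j]))) * key

theorem heckeY_add {k : ℕ} (i : ℕ) (hi : i + 1 < k) (F G : V k) :
    heckeY i hi (F + G) = heckeY i hi F + heckeY i hi G := by
  rw [heckeY, heckeY, heckeY, opT_add (fun e => by simp [Fin.ext_iff] at e)]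
  ring

theorem heckeY_smul {k : ℕ} (i : ℕ) (hi : i + 1 < k) (r : V 0) (F : V k) :
    heckeY i hi (eScalar r * F) = eScalar r * heckeY i hi F := by
  rw [heckeY, heckeY, opT_smul (fun e => by simp [Fin.ext_iff] at e)]
  ring

theorem opE_add {k : ℕ} (F G : V k) : opE (F + G) = opE F + opE G := by
  rw [opE, dPlus_add, dMinus_add]
  rfl

theorem opE_smul {k : ℕ} (r : V 0) (F : V k) : opE (eScalar r * F) = eScalar r * opE F := by
  rw [opE, dPlus_smul, dMinus_smul]
  rfl

/-- `(T_{i+1} + q) U = U (T_i + q)`. -/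
theorem Realizable.heckeY_dPlus {k : ℕ} {F : V k} (h : Realizable F) {i : ℕ} (hi : i + 1 < k) :
    Vale.Agent.P066.heckeY (i + 1) (Nat.succ_lt_succ hi) (Vale.Agent.P066.dPlus F) =
      Vale.Agent.P066.dPlus (Vale.Agent.P066.heckeY i hi F) := by
  refine ext_evalV fun N hN => ?_
  obtain ⟨S, hE, hR⟩ := h N
  rw [(hR.plus hE).hecke hE.plus _ hN, (hR.hecke hE hi).plus (hE.hecke i) hN,
    seg_cons (Nat.succ_pos k) (by omega), sHecke_sPlus]

/-- `(T_i + q) D = D (T_i + q)` for positions other than the oldest. -/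
theorem Realizable.heckeY_dMinus {k : ℕ} {F : V (k + 1)} (h : Realizable F) {i : ℕ}
    (hi : i + 1 < k) :
    Vale.Agent.P066.heckeY i hi (Vale.Agent.P066.dMinus F) =
      Vale.Agent.P066.dMinus (Vale.Agent.P066.heckeY i (Nat.lt_succ_of_lt hi) F) := by
  refine ext_evalV fun N hN => ?_
  obtain ⟨S, hE, hR⟩ := h N
  rw [(hR.minus hE).hecke hE.minus hi hN, (hR.hecke hE _).minus (hE.hecke i) hN,
    sHecke_sMinus S (nodup_seg 0 k) (by rw [length_seg hN]; omega)]

/-- `(T_0 + q) U U = (1 + q) U U`. -/
theorem Realizable.heckeY_dPlus_dPlus {k : ℕ} {F : V k} (h : Realizable F) :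
    Vale.Agent.P066.heckeY 0 (by omega) (Vale.Agent.P066.dPlus (Vale.Agent.P066.dPlus F)) =
      C (1 + qq) * Vale.Agent.P066.dPlus (Vale.Agent.P066.dPlus F) := by
  refine ext_evalV fun N hN => ?_
  obtain ⟨S, hE, hR⟩ := h N
  have hRR := (hR.plus hE).plus hE.plus
  rw [hRR.hecke hE.plus.plus _ hN, map_mul, evalV_C, hRR hN, map_add, C_1,
    seg_cons (a := 0) (by omega) (by omega), seg_cons (a := 0 + 1) (by omega) (by omega)]
  exact sHecke_sPlus_sPlus S (by simp) (by simp [mem_seg]) (by simp [mem_seg])

/-- `D D (T_last + q) = (1 + q) D D`. -/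
theorem Realizable.dMinus_dMinus_heckeY {k : ℕ} {F : V (k + 2)} (h : Realizable F) :
    Vale.Agent.P066.dMinus (Vale.Agent.P066.dMinus
        (Vale.Agent.P066.heckeY k (Nat.lt_succ_self (k + 1)) F)) =
      C (1 + qq) * Vale.Agent.P066.dMinus (Vale.Agent.P066.dMinus F) := by
  refine ext_evalV fun N hN => ?_
  obtain ⟨S, hE, hR⟩ := h N
  rw [((hR.hecke hE _).minus (hE.hecke k)).minus (hE.hecke k).minus hN, map_mul, evalV_C,
    (hR.minus hE).minus hE.minus hN, map_add, C_1]
  have := sMinus_sMinus_sHecke S (seg N 0 k)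
  rwa [length_seg hN, Nat.sub_zero] at this

/-- `D E + q U D D = E D (T_last + q)`. -/
theorem Realizable.dMinus_opE {k : ℕ} {F : V (k + 2)} (h : Realizable F) :
    Vale.Agent.P066.dMinus (Vale.Agent.P066.opE F) +
        C qq * Vale.Agent.P066.dPlus (Vale.Agent.P066.dMinus (Vale.Agent.P066.dMinus F)) =
      Vale.Agent.P066.opE (Vale.Agent.P066.dMinus
        (Vale.Agent.P066.heckeY k (Nat.lt_succ_self (k + 1)) F)) := by
  refine ext_evalV fun N hN => ?_
  obtain ⟨S, hE, hR⟩ := h N
  unfold Vale.Agent.P066.opE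
  rw [map_add, map_mul, evalV_C, ((hR.plus hE).minus hE.plus).minus hE.plus.minus hN,
    ((hR.minus hE).minus hE.minus).plus hE.minus.minus hN,
    (((hR.hecke hE _).minus (hE.hecke k)).plus (hE.hecke k).minus).minus
      (hE.hecke k).minus.plus hN,
    seg_cons (Nat.succ_pos k) (by omega)]
  have := state_DE S ⟨0, by omega⟩ (seg N (0 + 1) (k + 1))
  rwa [length_seg hN, show k + 1 - (0 + 1) = k by omega] at this

/-- `(T_0 + q) U E = E U + q U U D`. -/
theorem Realizable.heckeY_dPlus_opE {k : ℕ} {F : V (k + 1)} (h : Realizable F) :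
    Vale.Agent.P066.heckeY 0 (by omega) (Vale.Agent.P066.dPlus (Vale.Agent.P066.opE F)) =
      Vale.Agent.P066.opE (Vale.Agent.P066.dPlus F) +
        C qq * Vale.Agent.P066.dPlus (Vale.Agent.P066.dPlus (Vale.Agent.P066.dMinus F)) := by
  refine ext_evalV fun N hN => ?_
  obtain ⟨S, hE, hR⟩ := h N
  unfold Vale.Agent.P066.opE
  rw [map_add, map_mul, evalV_C,
    (((hR.plus hE).minus hE.plus).plus hE.plus.minus).hecke hE.plus.minus.plus _ hN,
    ((hR.plus hE).plus hE.plus).minus hE.plus.plus hN,
    ((hR.minus hE).plus hE.minus).plus hE.minus.plus hN,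
    seg_cons (a := 0) (by omega) (by omega), seg_cons (a := 0 + 1) (by omega) (by omega)]
  exact state_CUE S (by simp) (by simp [mem_seg]) (by simp [mem_seg])

end Vale.Agent.P066
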