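import Vale.Agent.P066.States

/-!
The generating series behind the retirement of a vertex.

With `u = x_k, …, x_{N-1}` the colours available to the retired vertex, `tailGen k t` is the series of
the values of `y ^ r` moved to the colour `t`; the sum of `x_t` times it is the series of
`h_{r+1}[(1-q)U]/(1-q)`.
-/

noncomputable section

namespace Vale.Agent.P066

open Finset MvPolynomial

variable {N : ℕ}

/-- The colour `i` as a variable, zero past `N`. -/
def xv (N i : ℕ) : R N := if h : i < N then X ⟨i, h⟩ else 0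

theorem xv_eq {i : ℕ} (h : i < N) : xv N i = X ⟨i, h⟩ := dif_pos h

/-- The geometric series of ratio `x`. -/
def geo (x : R N) : PowerSeries (R N) := PowerSeries.mk fun n => x ^ n

/-- The linear series `1 - x z`. -/
def lin (x : R N) : PowerSeries (R N) := 1 - PowerSeries.C x * PowerSeries.X

theorem lin_mul_geo (x : R N) : lin x * geo x = 1 := by
  ext n
  rw [lin, sub_mul, one_mul, map_sub, mul_assoc, PowerSeries.coeff_C_mul, geo,
    PowerSeries.coeff_mk]
  cases n with
  | zero => simp
  | succ n =>
    rw [PowerSeries.coeff_succ_X_mul, PowerSeries.coeff_mk, pow_succ', sub_self,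
      PowerSeries.coeff_one, if_neg (Nat.succ_ne_zero n)]

/-- `∏_{k ≤ i < t} (1 - q x_i z) / (1 - x_i z)`. -/
def tailProd (N k t : ℕ) : PowerSeries (R N) :=
  ∏ i ∈ Ico k t, lin (C qq * xv N i) * geo (xv N i)

/-- The series of the powers of the oldest variable moved to the colour `t`. -/
def tailGen (N k t : ℕ) : PowerSeries (R N) := tailProd N k t * geo (xv N t)

theorem tailProd_succ {k t : ℕ} (h : k ≤ t) :
    tailProd N k (t + 1) = lin (C qq * xv N t) * tailGen N k t := by
  rw [tailGen, tailProd, prod_Ico_succ_top h, ← tailProd]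
  ring

theorem tailGen_self (k : ℕ) (r : ℕ) :
    PowerSeries.coeff r (tailGen N k k) = xv N k ^ r := by
  simp [tailGen, tailProd, geo]

theorem map_geo (φ : R N →+* R N) (x : R N) : PowerSeries.map φ (geo x) = geo (φ x) := by
  ext n
  simp [geo]

theorem map_lin (φ : R N →+* R N) (x : R N) : PowerSeries.map φ (lin x) = lin (φ x) := by
  simp [lin]

theorem swapX_xv {a b : Fin N} {i : ℕ} (ha : i ≠ a.1) (hb : i ≠ b.1) :
    swapX a b (xv N i) = xv N i := by
  unfold xv
  split
  · exact swapX_other (fun e => ha (congrArg Fin.val e)) (fun e => hb (congrArg Fin.val e))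
  · exact map_zero _

/-- Moving to the next colour is the Hecke relation. -/
theorem tailGen_step {k t : ℕ} (hkt : k ≤ t) (ht : t + 1 < N) :
    PowerSeries.C (xv N (t + 1) - xv N t) *
        (tailGen N k (t + 1) - PowerSeries.map
          (swapX ⟨t, Nat.lt_of_succ_lt ht⟩ ⟨t + 1, ht⟩ : R N →+* R N) (tailGen N k t)) =
      PowerSeries.C ((C qq - 1) * xv N t) *
        (tailGen N k t - PowerSeries.map
          (swapX ⟨t, Nat.lt_of_succ_lt ht⟩ ⟨t + 1, ht⟩ : R N →+* R N) (tailGen N k t)) := by
  set φ : R N →+* R N := (swapX ⟨t, Nat.lt_of_succ_lt ht⟩ ⟨t + 1, ht⟩ : R N →+* R N) with hφ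
  have hu : φ (xv N t) = xv N (t + 1) := by
    simp [hφ, xv_eq ht, xv_eq (Nat.lt_of_succ_lt ht), swapX_left]
  have hP : PowerSeries.map φ (tailProd N k t) = tailProd N k t := by
    rw [tailProd, map_prod]
    refine prod_congr rfl fun i hi => ?_
    obtain ⟨-, hit⟩ := mem_Ico.1 hi
    have : φ (xv N i) = xv N i := swapX_xv (by simp; omega) (by simp; omega)
    rw [map_mul, map_lin, map_geo, map_mul, this,
      show φ (C qq) = C qq from swapX_C _ _ _]
  rw [tailGen, tailGen, map_mul, hP, map_geo, hu, tailProd_succ hkt, tailGen]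
  have e1 := lin_mul_geo (xv N t)
  have e2 := lin_mul_geo (xv N (t + 1))
  set g := geo (xv N t)
  set g' := geo (xv N (t + 1))
  set u := xv N t
  set w := xv N (t + 1)
  simp only [lin, map_sub, map_mul, map_one] at e1 e2 ⊢
  linear_combination (PowerSeries.C w - PowerSeries.C u) * g' * tailProd N k t * e1 -
    (PowerSeries.C (C qq) - 1) * PowerSeries.C u * tailProd N k t * (g' * e1 - g * e2)

theorem sum_tailGen {k m : ℕ} (h : k ≤ m) :
    PowerSeries.C (1 - C qq) * PowerSeries.X *
        ∑ t ∈ Ico k m, PowerSeries.C (xv N t) * tailGen N k t = tailProd N k m - 1 := by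
  induction m, h using Nat.le_induction with
  | base => simp [tailProd]
  | succ m hm ih =>
    rw [sum_Ico_succ_top hm, mul_add, ih, tailProd_succ hm]
    have e := lin_mul_geo (xv N m)
    simp only [lin, tailGen, map_sub, map_mul, map_one] at e ⊢
    linear_combination -(tailProd N k m) * e

/-- The numbers `Σ_t x_t g_{r,t}`. -/
def retired (N k : ℕ) (r : ℕ) : R N :=
  ∑ t ∈ Ico k N, xv N t * PowerSeries.coeff r (tailGen N k t)

/-- A family `e` is the elementary family of the colours from `k` on. -/
def IsTailESymm (N k : ℕ) (e : ℕ → R N) : Prop :=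
  ∀ c : R N, PowerSeries.mk (fun r => (-c) ^ r * e r) = ∏ i ∈ Ico k N, lin (c * xv N i)

/-- The recursion of the retired values. -/
theorem retired_rec {k : ℕ} (hk : k ≤ N) {e : ℕ → R N} (he : IsTailESymm N k e) (r : ℕ) :
    ∑ i ∈ range (r + 1), (-1) ^ i * e i * retired N k (r - i) =
      (-1) ^ r * (C (qint (r + 1)) * e (r + 1)) := by
  have hser : PowerSeries.C (1 - C qq) * PowerSeries.X * (PowerSeries.mk (retired N k) *
      PowerSeries.mk (fun i => (-1 : R N) ^ i * e i)) =
      PowerSeries.mk (fun i => (-C qq) ^ i * e i) - PowerSeries.mk (fun i => (-1) ^ i * e i) := by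
    have e1 : PowerSeries.mk (retired N k) =
        ∑ t ∈ Ico k N, PowerSeries.C (xv N t) * tailGen N k t := by
      ext n
      simp [retired]
    rw [← mul_assoc, e1, sum_tailGen hk, he (C qq), he 1, sub_mul, one_mul, tailProd,
      prod_mul_distrib]
    congr 1
    rw [mul_assoc, ← prod_mul_distrib]
    refine mul_right_eq_self₀.2 (Or.inl ?_)
    refine prod_eq_one fun i _ => ?_
    rw [one_mul, mul_comm, lin_mul_geo]
  have := congrArg (PowerSeries.coeff (r + 1)) hser
  rw [mul_assoc, PowerSeries.coeff_C_mul, PowerSeries.coeff_succ_X_mul, map_sub,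
    PowerSeries.coeff_mk, PowerSeries.coeff_mk, mul_comm (PowerSeries.mk (retired N k)),
    PowerSeries.coeff_mul, Finset.Nat.sum_antidiagonal_eq_sum_range_succ_mk] at this
  simp only [PowerSeries.coeff_mk] at this
  have hq : C (qint (r + 1)) * (1 - C qq) = (1 : R N) - C qq ^ (r + 1) := by
    rw [qint, map_sum, ← geom_sum_mul_neg (C qq) (r + 1)]
    congr 1
    exact sum_congr rfl fun i _ => map_pow _ _ _
  have hne : (1 : R N) - C qq ≠ 0 := by
    rw [sub_ne_zero, ← C_1]
    intro h
    have := congrArg (Polynomial.coeff · 1) (C_injective _ _ h)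
    simp [qq, Polynomial.coeff_one] at this
  refine mul_left_cancel₀ hne (this.trans ?_)
  rw [show (-C qq : R N) ^ (r + 1) = (-1) ^ (r + 1) * C qq ^ (r + 1) from by rw [← mul_pow]; congr 1; ring]
  linear_combination -((-1) ^ r * e (r + 1)) * hq

theorem plethP_zero {A : Type*} [CommRing A] [Algebra (Polynomial ℤ) A] (e : ℕ → A) :
    plethP e 0 = 0 := by
  rw [plethP]
  simp [qint]

/-- The retired values are `h_{r+1}[(1-q)U]/(1-q)`. -/
theorem retired_eq_plethP {k : ℕ} (hk : k ≤ N) {e : ℕ → R N} (he : IsTailESymm N k e)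
    (he0 : e 0 = 1) (r : ℕ) : retired N k r = plethP e (r + 1) := by
  induction r using Nat.strong_induction_on with
  | _ r ih =>
    have h := retired_rec hk he r
    rw [sum_range_succ', pow_zero, one_mul, he0, one_mul, Nat.sub_zero] at h
    rw [plethP, ← Fin.sum_univ_eq_sum_range (fun i => (-1) ^ (i + 1) * e (i + 1) *
      retired N k (r - (i + 1)))] at *
    have hs : ∑ i : Fin r, (-1) ^ (i.1 + 1) * e (i.1 + 1) * retired N k (r - (i.1 + 1)) =
        ∑ i : Fin (r + 1 - 1), (-1) ^ (i.1 + 1) * e (i.1 + 1) * plethP e (r + 1 - (i.1 + 1)) :=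
      sum_congr rfl fun i _ => by
        rw [ih _ (by omega), show r - (i.1 + 1) + 1 = r + 1 - (i.1 + 1) by omega]
    rw [← hs, MvPolynomial.algebraMap_eq]
    linear_combination h

end Vale.Agent.P066
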