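import Vale.Agent.P066.Cone

/-!
Linearity of the operators and explicit formulas for at most three active vertices.
-/

noncomputable section

namespace Vale.Agent.P066

open Finset MvPolynomial

variable {k : ℕ}

/-- The inclusion forgetting that the oldest variable is absent. -/
abbrev up : V k →ₐ[Polynomial ℤ] V (k + 1) := rename (Sum.map id Fin.castSucc)

/-- The variable of an active vertex. -/
abbrev yv (i : Fin k) : V k := X (Sum.inr i)

/-- The scalar `q`. -/
abbrev Qv : V k := C qq

/-- The scalar `[r]`. -/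
abbrev Iv (r : ℕ) : V k := C (qint r)

theorem swapY_eW (a b : Fin k) (j : ℕ) : swapY a b (eW j) = eW j := by
  cases j with
  | zero => exact map_one _
  | succ j => simp [eW, swapY, Equiv.swap_apply_of_ne_of_ne]

theorem swapY_C (a b : Fin k) (c : Polynomial ℤ) : swapY a b (C c) = C c := by simp [swapY]

theorem swapY_left (a b : Fin k) : swapY a b (yv a) = yv b := by simp [swapY]

theorem swapY_right (a b : Fin k) : swapY a b (yv b) = yv a := by simp [swapY]

theorem swapY_other {a b i : Fin k} (ha : i ≠ a) (hb : i ≠ b) : swapY a b (yv i) = yv i := by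
  simp [swapY, Equiv.swap_apply_of_ne_of_ne, ha, hb]

theorem divDiff_eq {a b : Fin k} (hab : a ≠ b) {F H : V k}
    (h : F - swapY a b F = (yv b - yv a) * H) : divDiff a b F = H := by
  have hne : (yv b - yv a : V k) ≠ 0 := by
    rw [sub_ne_zero]
    intro e
    exact hab (Sum.inr_injective (MvPolynomial.X_injective e)).symm
  exact mul_left_cancel₀ hne ((divDiff_spec a b F).symm.trans h)

theorem opT_eq {a b : Fin k} (hab : a ≠ b) {F G H : V k} (hs : swapY a b F = G)
    (h : F - G = (yv b - yv a) * H) : opT a b F = G + (Qv - 1) * yv a * H := by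
  rw [opT, divDiff_eq hab (by rw [hs]; exact h), hs, Qv, yv, map_sub, map_one]

theorem opT_add {a b : Fin k} (hab : a ≠ b) (F G : V k) :
    opT a b (F + G) = opT a b F + opT a b G := by
  simp only [opT, map_add]
  rw [divDiff_eq hab (H := divDiff a b F + divDiff a b G)
    (by rw [map_add, mul_add, ← divDiff_spec, ← divDiff_spec]; ring)]
  ring

theorem opT_mul {a b : Fin k} (hab : a ≠ b) {G : V k} (hG : swapY a b G = G) (F : V k) :
    opT a b (G * F) = G * opT a b F := by
  simp only [opT, map_mul, hG]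
  rw [divDiff_eq hab (H := G * divDiff a b F)
    (by rw [map_mul, hG, mul_left_comm, ← divDiff_spec]; ring)]
  ring

theorem opT_self {a b : Fin k} (hab : a ≠ b) {F : V k} (hF : swapY a b F = F) : opT a b F = F := by
  rw [opT_eq hab hF (H := 0) (by ring)]
  ring

theorem tChain_add (j : ℕ) : ∀ (h : j ≤ k) (F G : V (k + 1)),
    tChain j h (F + G) = tChain j h F + tChain j h G := by
  induction j with
  | zero => intro h F G; rw [tChain, tChain, tChain]
  | succ j ih =>
    intro h F G
    rw [tChain, tChain, tChain, opT_add (by simp [Fin.ext_iff]), ih]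

theorem tChain_mul {G : V (k + 1)} (hG : ∀ a b, swapY a b G = G) (j : ℕ) :
    ∀ (h : j ≤ k) (F : V (k + 1)), tChain j h (G * F) = G * tChain j h F := by
  induction j with
  | zero => intro h F; rw [tChain, tChain]
  | succ j ih =>
    intro h F
    rw [tChain, tChain, opT_mul (by simp [Fin.ext_iff]) (hG _ _), ih]

theorem up_eW (j : ℕ) : up (eW j : V k) = eW j := by
  cases j with
  | zero => exact map_one _
  | succ j => simp [eW]

theorem up_C (c : Polynomial ℤ) : up (C c : V k) = C c := by simp

theorem up_yv (i : Fin k) : up (yv i) = yv i.castSucc := by simp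

theorem dPlus_add (F G : V k) : dPlus (F + G) = dPlus F + dPlus G := by
  simp only [dPlus, map_add, tChain_add]

theorem dPlus_C_mul (c : Polynomial ℤ) (F : V k) : dPlus (C c * F) = C c * dPlus F := by
  simp only [dPlus, map_mul, rename_C]
  exact tChain_mul (fun a b => swapY_C a b c) _ _ _

theorem dPlus_eW_mul (j : ℕ) (F : V k) : dPlus (eW j * F) = eW j * dPlus F := by
  rw [dPlus, map_mul, up_eW]
  exact tChain_mul (fun a b => swapY_eW a b j) _ _ _

theorem dPlus_zero : dPlus (0 : V k) = 0 := by simpa using dPlus_add (0 : V k) 0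

theorem splitLast_up (G : V k) : splitLast (up G) = Polynomial.C G := by
  induction G using MvPolynomial.induction_on with
  | C c => simp [splitLast, MvPolynomial.algebraMap_eq]
  | add p q hp hq => simp only [map_add, hp, hq]
  | mul_X p i hp =>
    rw [map_mul, map_mul, hp, map_mul]
    refine congrArg _ ?_
    rcases i with j | j
    · simp only [up, splitLast, rename_X, aeval_X, Sum.map_inl, Sum.elim_inl, id_eq]
    · simp only [up, splitLast, rename_X, aeval_X, Sum.map_inr, Sum.elim_inr, Fin.lastCases_castSucc]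

theorem splitLast_last : splitLast (yv (Fin.last k) : V (k + 1)) = Polynomial.X := by
  simp [splitLast]

theorem dMinus_add (F G : V (k + 1)) : dMinus (F + G) = dMinus F + dMinus G := by
  rw [dMinus, map_add]
  exact Polynomial.sum_add_index _ _ _ (by simp) (by intros; ring)

theorem dMinus_up_mul (G : V k) (F : V (k + 1)) : dMinus (up G * F) = G * dMinus F := by
  rw [dMinus, dMinus, map_mul, splitLast_up]
  induction splitLast F using Polynomial.induction_on' with
  | add p q hp hq =>
    rw [mul_add, Polynomial.sum_add_index _ _ _ (by simp) (by intros; ring),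
      Polynomial.sum_add_index _ _ _ (by simp) (by intros; ring), hp, hq, mul_add]
  | monomial n c =>
    rw [Polynomial.C_mul_monomial, Polynomial.sum_monomial_index _ _ (by simp),
      Polynomial.sum_monomial_index _ _ (by simp), mul_assoc]

theorem dMinus_C_mul (c : Polynomial ℤ) (F : V (k + 1)) : dMinus (C c * F) = C c * dMinus F := by
  rw [← up_C, dMinus_up_mul]

theorem dMinus_eW_mul (j : ℕ) (F : V (k + 1)) : dMinus (eW j * F) = eW j * dMinus F := by
  rw [← up_eW, dMinus_up_mul]

theorem dMinus_zero : dMinus (0 : V (k + 1)) = 0 := by simpa using dMinus_add (0 : V (k + 1)) 0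

theorem dMinus_pow (j : ℕ) :
    dMinus (yv (Fin.last k) ^ j : V (k + 1)) = plethP (eZ k) (j + 1) := by
  rw [dMinus, map_pow, splitLast_last, ← Polynomial.monomial_one_right_eq_X_pow,
    Polynomial.sum_monomial_index _ _ (by simp), one_mul]

theorem eZ_zero_right : ∀ k : ℕ, (eZ k 0 : V k) = 1
  | 0 => by simp [eZ, eW]
  | k + 1 => by simp [eZ, eZ_zero_right k]

theorem eZ_succ_succ (k r : ℕ) :
    (eZ (k + 1) (r + 1) : V (k + 1)) =
      up (eZ k (r + 1)) - yv (Fin.last k) * eZ (k + 1) r := by
  conv_lhs => rw [eZ, sum_range_succ']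
  simp only [pow_zero, one_mul, Nat.sub_zero, Nat.succ_sub_succ_eq_sub, eZ, mul_sum]
  rw [sub_eq_add_neg _ (∑ x ∈ range (r + 1), _), ← sum_neg_distrib]
  refine (add_comm _ _).trans (congrArg _ (sum_congr rfl fun i _ => ?_))
  ring

theorem plethP_eq {R : Type*} [CommRing R] [Algebra (Polynomial ℤ) R] (e : ℕ → R) (r : ℕ) :
    plethP e (r + 1) = (-1) ^ r * (algebraMap (Polynomial ℤ) R (qint (r + 1)) * e (r + 1)) -
      ∑ i ∈ range r, (-1) ^ (i + 1) * e (i + 1) * plethP e (r - i) := by
  rw [plethP]
  congr 1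
  · ring
  · rw [← Fin.sum_univ_eq_sum_range]
    simp

/-- Retiring a vertex from `e_r[Z]` gives `[r + 1] e_{r+1}[Z + y]`. -/
theorem dMinus_eZ (k r : ℕ) :
    dMinus (eZ (k + 1) r : V (k + 1)) = Iv (r + 1) * eZ k (r + 1) := by
  let L : V (k + 1) →+ V k := AddMonoidHom.mk' dMinus dMinus_add
  have h1 : dMinus (eZ (k + 1) r : V (k + 1)) =
      ∑ i ∈ range (r + 1), (-1) ^ i * (eZ k (r - i) * plethP (eZ k) (i + 1)) := by
    show L _ = _
    rw [eZ, map_sum]
    refine sum_congr rfl fun i _ => ?_
    have e : ((-yv (Fin.last k)) ^ i * up (eZ k (r - i)) : V (k + 1)) =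
        up ((-1) ^ i * eZ k (r - i)) * yv (Fin.last k) ^ i := by
      rw [map_mul, map_pow, map_neg, map_one, neg_pow (yv (Fin.last k) : V (k + 1))]
      ring
    show dMinus ((-yv (Fin.last k)) ^ i * up (eZ k (r - i)) : V (k + 1)) = _
    rw [e, dMinus_up_mul, dMinus_pow]
    ring
  have hs : ((-1 : V k)) ^ r * (-1) ^ r = 1 := by
    rw [← mul_pow, show (-1 : V k) * -1 = 1 by ring, one_pow]
  rw [h1, sum_range_succ, Nat.sub_self, eZ_zero_right, one_mul, plethP_eq, mul_sub, ← mul_assoc,
    hs, one_mul, MvPolynomial.algebraMap_eq, add_sub, sub_eq_iff_eq_add,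
    add_comm (∑ x ∈ range r, _) _, add_right_inj, mul_sum, ← sum_range_reflect]
  refine sum_congr rfl fun i hi => ?_
  have hi' : i < r := mem_range.1 hi
  rw [show r - (r - 1 - i) = i + 1 by omega, show r - 1 - i + 1 = r - i by omega]
  have hp : ((-1) : V k) ^ (r - 1 - i) = (-1) ^ r * (-1) ^ (i + 1) := by
    have h2 : ((-1 : V k)) ^ (i + 1) * (-1) ^ (i + 1) = 1 := by
      rw [← mul_pow, show (-1 : V k) * -1 = 1 by ring, one_pow]
    have h3 : ((-1 : V k)) ^ r = (-1) ^ (r - 1 - i) * (-1) ^ (i + 1) := by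
      rw [← pow_add]
      congr 1
      omega
    rw [h3, mul_assoc, h2, mul_one]
  rw [hp]
  ring

theorem qint_zero : qint 0 = 0 := by simp [qint]

theorem qint_one : qint 1 = 1 := by simp [qint]

theorem qint_succ (r : ℕ) : qint (r + 1) = 1 + qq * qint r := by
  rw [qint, sum_range_succ', qint, mul_sum, add_comm]
  simp [pow_succ']

theorem qint_add (b d : ℕ) : qint (b + d) = qint b + qq ^ b * qint d := by
  rw [qint, sum_range_add, qint, qint, mul_sum]
  simp [pow_add]

theorem Iv_zero : (Iv 0 : V k) = 0 := by simp [Iv, qint_zero]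

theorem Iv_one : (Iv 1 : V k) = 1 := by simp [Iv, qint_one]

theorem Iv_succ (r : ℕ) : (Iv (r + 1) : V k) = 1 + Qv * Iv r := by
  simp [Iv, Qv, qint_succ]

theorem Iv_add (b d : ℕ) : (Iv (b + d) : V k) = Iv b + Qv ^ b * Iv d := by
  simp [Iv, Qv, qint_add]

end Vale.Agent.P066
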