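import Vale.Agent.P066.SmallBasic

/-!
Positive cones for at most three active vertices, closed under the two operators.
-/

noncomputable section

namespace Vale.Agent.P066.Small

open Finset MvPolynomial

variable {k : ℕ}

/-- `e_r[W - y_0]`. -/
def x (r : ℕ) : V 1 := eZ 1 r
/-- `e_r[W - y_0]` among two active vertices. -/
def a (r : ℕ) : V 2 := up (x r)
/-- `e_r[W - y_0 - y_1]`. -/
def z (r : ℕ) : V 2 := eZ 2 r
/-- `e_r[W - y_0 - y_1 - y_2]`. -/
def w (r : ℕ) : V 3 := eZ 3 r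
/-- `e_r[Z + q y_0]`. -/
def b : ℕ → V 2
  | 0 => 1
  | r + 1 => z (r + 1) + Qv * yv 0 * z r
/-- `e_r[Z + q (y_0 + y_1)]`. -/
def c : ℕ → V 3
  | 0 => 1
  | 1 => w 1 + Qv * (yv 0 + yv 1)
  | r + 2 => w (r + 2) + Qv * (yv 0 + yv 1) * w (r + 1) + Qv ^ 2 * (yv 0 * yv 1) * w r

theorem x_zero : x 0 = 1 := eZ_zero_right 1
theorem a_zero : a 0 = 1 := by simp [a, x_zero]
theorem z_zero : z 0 = 1 := eZ_zero_right 2
theorem w_zero : w 0 = 1 := eZ_zero_right 3
theorem b_zero : b 0 = 1 := rfl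

theorem x_succ (r : ℕ) : x (r + 1) = eW (r + 1) - yv 0 * x r := by
  rw [x, eZ_succ_succ 0 r, show eZ 0 (r + 1) = eW (r + 1) from rfl, up_eW]
  rfl

theorem a_succ (r : ℕ) : a (r + 1) = eW (r + 1) - yv 0 * a r := by
  rw [a, x_succ, map_sub, map_mul, up_eW, up_yv]
  rfl

theorem z_succ (r : ℕ) : z (r + 1) = a (r + 1) - yv 1 * z r := eZ_succ_succ 1 r

theorem w_succ (r : ℕ) : w (r + 1) = up (z (r + 1)) - yv 2 * w r := eZ_succ_succ 2 r

theorem a_eq (r : ℕ) : a (r + 1) = z (r + 1) + yv 1 * z r := by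
  rw [z_succ r]; ring

theorem e_eq_one : (eW 1 : V 2) = z 1 + (yv 0 + yv 1) := by
  rw [z_succ 0, a_succ 0, a_zero, z_zero]; ring

theorem e_eq (r : ℕ) :
    (eW (r + 2) : V 2) = z (r + 2) + (yv 0 + yv 1) * z (r + 1) + yv 0 * yv 1 * z r := by
  linear_combination (-1 : V 2) * a_succ (r + 1) + a_eq (r + 1) + yv 0 * a_eq r

theorem up_z_one : up (z 1) = eW 1 - (yv 0 + yv 1 : V 3) := by
  have h := congrArg up e_eq_one
  simp only [map_add, up_eW, up_yv] at h
  rw [h]; simp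

theorem up_z_succ (r : ℕ) :
    up (z (r + 2)) = eW (r + 2) - (yv 0 + yv 1) * up (z (r + 1)) - yv 0 * yv 1 * up (z r) := by
  have h := congrArg up (e_eq r)
  simp only [map_add, map_mul, up_eW, up_yv] at h
  rw [h]
  simp
  ring

theorem up_a_succ (r : ℕ) : up (a (r + 1)) = eW (r + 1) - yv 0 * up (a r) := by
  rw [a_succ, map_sub, map_mul, up_eW, up_yv]
  rfl

theorem up_a_eq (r : ℕ) : up (a (r + 1)) = up (z (r + 1)) + yv 1 * up (z r) := by
  rw [a_eq, map_add, map_mul, up_yv]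
  rfl

theorem swap_z : ∀ r, swapY (0 : Fin 2) 1 (z r) = z r
  | 0 => by rw [z_zero, map_one]
  | 1 => by
    have h : z 1 = eW 1 - (yv 0 + yv 1) := by rw [e_eq_one]; ring
    rw [h, map_sub, map_add, swapY_eW, swapY_left, swapY_right]; ring
  | r + 2 => by
    have h : z (r + 2) = eW (r + 2) - (yv 0 + yv 1) * z (r + 1) - yv 0 * yv 1 * z r := by
      rw [e_eq]; ring
    rw [h, map_sub, map_sub, map_mul, map_mul, map_mul, map_add, swap_z (r + 1), swap_z r,
      swapY_eW, swapY_left, swapY_right]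
    ring

theorem swap_up_a : ∀ r, swapY (1 : Fin 3) 2 (up (a r)) = up (a r)
  | 0 => by rw [a_zero, map_one, map_one]
  | r + 1 => by
    rw [up_a_succ, map_sub, map_mul, swap_up_a r, swapY_eW,
      swapY_other (show (0 : Fin 3) ≠ 1 by decide) (by decide)]

theorem swap_up_z : ∀ r, swapY (0 : Fin 3) 1 (up (z r)) = up (z r)
  | 0 => by rw [z_zero, map_one, map_one]
  | 1 => by rw [up_z_one, map_sub, map_add, swapY_eW, swapY_left, swapY_right]; ring
  | r + 2 => by
    rw [up_z_succ, map_sub, map_sub, map_mul, map_mul, map_mul, map_add, swap_up_z (r + 1),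
      swap_up_z r, swapY_eW, swapY_left, swapY_right]
    ring

theorem swap01_w : ∀ r, swapY (0 : Fin 3) 1 (w r) = w r
  | 0 => by rw [w_zero, map_one]
  | r + 1 => by
    rw [w_succ, map_sub, map_mul, swap01_w r, swap_up_z,
      swapY_other (show (2 : Fin 3) ≠ 0 by decide) (by decide)]

theorem swap12_w : ∀ r, swapY (1 : Fin 3) 2 (w r) = w r
  | 0 => by rw [w_zero, map_one]
  | 1 => by
    have h : w 1 = up (a 1) - (yv 1 + yv 2) := by
      rw [w_succ 0, up_a_eq 0, z_zero, map_one, w_zero]; ring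
    rw [h, map_sub, map_add, swap_up_a, swapY_left, swapY_right]; ring
  | r + 2 => by
    have h : w (r + 2) = up (a (r + 2)) - (yv 1 + yv 2) * w (r + 1) - yv 1 * yv 2 * w r := by
      rw [up_a_eq (r + 1)]
      linear_combination w_succ (r + 1) + yv 1 * w_succ r
    rw [h, map_sub, map_sub, map_mul, map_mul, map_mul, map_add, swap12_w (r + 1), swap12_w r,
      swap_up_a, swapY_left, swapY_right]
    ring

theorem swap01_c : ∀ r, swapY (0 : Fin 3) 1 (c r) = c r
  | 0 => map_one _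
  | 1 => by
    simp only [c, map_add, map_mul, swap01_w, swapY_left, swapY_right, Qv, swapY_C]; ring
  | r + 2 => by
    simp only [c, map_add, map_mul, map_pow, swap01_w, swapY_left, swapY_right, Qv, swapY_C]
    ring

theorem dPlus_V1 (F : V 1) : dPlus F = opT (0 : Fin 2) 1 (up F) := by
  simp only [dPlus, tChain]
  rfl

theorem dPlus_V2 (F : V 2) : dPlus F = opT (0 : Fin 3) 1 (opT 1 2 (up F)) := by
  simp only [dPlus, tChain]
  rfl

theorem dPlus_one : dPlus (1 : V 0) = x 0 := by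
  rw [x_zero]
  simp [dPlus, tChain]

theorem dPlus_x : ∀ r, dPlus (x r) = b r
  | 0 => by rw [dPlus_V1, x_zero, map_one, opT_self (by decide) (map_one _)]; rfl
  | r + 1 => by
    rw [dPlus_V1, show up (x (r + 1)) = a (r + 1) from rfl, a_eq,
      opT_eq (show (0 : Fin 2) ≠ 1 by decide) (G := z (r + 1) + yv 0 * z r) (H := z r)
        (by rw [map_add, map_mul, swap_z, swap_z, swapY_right]) (by ring), b]
    ring

theorem opT12_up_z (r : ℕ) :
    opT (1 : Fin 3) 2 (up (z (r + 1))) = w (r + 1) + Qv * yv 1 * w r := by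
  have h : up (z (r + 1)) = w (r + 1) + yv 2 * w r := by rw [w_succ]; ring
  rw [h, opT_eq (show (1 : Fin 3) ≠ 2 by decide) (G := w (r + 1) + yv 1 * w r) (H := w r)
    (by rw [map_add, map_mul, swap12_w, swap12_w, swapY_right]) (by ring)]
  ring

theorem opT12_y0_mul (F : V 3) :
    opT (1 : Fin 3) 2 (Qv * yv 0 * F) = Qv * yv 0 * opT 1 2 F :=
  opT_mul (by decide) (by
    rw [map_mul, Qv, swapY_C, swapY_other (show (0 : Fin 3) ≠ 1 by decide) (by decide)]) F

theorem opT12_up_b : ∀ j, opT (1 : Fin 3) 2 (up (b j)) = c j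
  | 0 => by rw [b_zero, map_one, opT_self (by decide) (map_one _)]; rfl
  | 1 => by
    rw [b, map_add, map_mul, map_mul, Qv, up_C, up_yv, z_zero, map_one,
      show Fin.castSucc (0 : Fin 2) = 0 from rfl, opT_add (by decide), opT12_up_z, w_zero,
      opT12_y0_mul, opT_self (by decide) (map_one _), c]
    ring
  | r + 2 => by
    rw [b, map_add, map_mul, map_mul, Qv, up_C, up_yv, show Fin.castSucc (0 : Fin 2) = 0 from rfl,
      opT_add (by decide), opT12_up_z, opT12_y0_mul, opT12_up_z, c]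
    ring

theorem opT01_up_a : ∀ i, opT (0 : Fin 3) 1 (up (a i)) = up (b i)
  | 0 => by rw [a_zero, b_zero, map_one, opT_self (by decide) (map_one _)]
  | r + 1 => by
    rw [up_a_eq, opT_eq (show (0 : Fin 3) ≠ 1 by decide)
        (G := up (z (r + 1)) + yv 0 * up (z r)) (H := up (z r))
        (by rw [map_add, map_mul, swap_up_z, swap_up_z, swapY_right]) (by ring),
      b, map_add, map_mul, map_mul, Qv, up_C, up_yv, show Fin.castSucc (0 : Fin 2) = 0 from rfl]
    ring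

theorem dPlus_ab (i j : ℕ) : dPlus (a i * b j) = up (b i) * c j := by
  rw [dPlus_V2, map_mul, opT_mul (by decide) (swap_up_a i), opT12_up_b, mul_comm (up (a i)),
    opT_mul (by decide) (swap01_c j), opT01_up_a, mul_comm]

theorem dPlus_z_zero : dPlus (z 0) = w 0 := by
  rw [z_zero, w_zero, dPlus_V2, map_one, opT_self (by decide) (map_one _),
    opT_self (by decide) (map_one _)]

theorem dPlus_z (r : ℕ) : dPlus (z (r + 1)) = w (r + 1) + Qv ^ 2 * yv 0 * w r := by
  rw [dPlus_V2, opT12_up_z, opT_eq (show (0 : Fin 3) ≠ 1 by decide)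
    (G := w (r + 1) + Qv * yv 0 * w r) (H := Qv * w r)
    (by rw [map_add, map_mul, map_mul, Qv, swapY_C, swap01_w, swap01_w, swapY_right]) (by ring)]
  ring

theorem dMinus_x (r : ℕ) : dMinus (x r) = Iv (r + 1) * eW (r + 1) := dMinus_eZ 0 r

theorem dMinus_z (r : ℕ) : dMinus (z r) = Iv (r + 1) * x (r + 1) := dMinus_eZ 1 r

theorem dMinus_w (r : ℕ) : dMinus (w r) = Iv (r + 1) * z (r + 1) := dMinus_eZ 2 r

theorem dMinus_b : ∀ j, dMinus (b j) = x (j + 1) + Qv * Iv j * eW (j + 1)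
  | 0 => by
    rw [b_zero, ← z_zero, dMinus_z, zero_add, Iv_one, Iv_zero]; ring
  | r + 1 => by
    rw [b, dMinus_add, show (Qv * yv 0 : V 2) = up (Qv * yv 0 : V 1) by simp [Qv],
      dMinus_up_mul, dMinus_z, dMinus_z, Iv_succ (r + 1)]
    linear_combination (Qv * Iv (r + 1)) * x_succ (r + 1)

theorem up_Q : up (Qv : V k) = Qv := up_C _

theorem dMinus_c : ∀ j, dMinus (c j) = b (j + 1) + Qv * a (j + 1) + Qv * (Iv j - 1) * eW (j + 1)
  | 0 => by
    rw [c, ← w_zero, dMinus_w, b, a_eq, e_eq_one, z_zero, Iv_zero, zero_add, Iv_one]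
    ring
  | 1 => by
    rw [c, dMinus_add, show (Qv * (yv 0 + yv 1) : V 3) = up (Qv * (yv 0 + yv 1) : V 2) * w 0 by
      simp [w_zero, Qv], dMinus_up_mul, dMinus_w, dMinus_w, b, a_eq, Iv_succ 1, zero_add, Iv_one]
    ring
  | r + 2 => by
    rw [c, dMinus_add, dMinus_add,
      show (Qv * (yv 0 + yv 1) : V 3) = up (Qv * (yv 0 + yv 1) : V 2) by simp [Qv],
      show (Qv ^ 2 * (yv 0 * yv 1) : V 3) = up (Qv ^ 2 * (yv 0 * yv 1) : V 2) by simp [Qv],
      dMinus_up_mul, dMinus_up_mul, dMinus_w, dMinus_w, dMinus_w, b, a_eq, e_eq (r + 1),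
      Iv_succ (r + 2), Iv_succ (r + 1)]
    ring

theorem y1_mul_b : ∀ i, yv 1 * b i = (1 - Qv) * a (i + 1) + Qv * eW (i + 1) - b (i + 1)
  | 0 => by rw [b, b, a_eq, e_eq_one, z_zero]; ring
  | i + 1 => by rw [b, b, a_eq, e_eq i]; ring

theorem b_step (i j : ℕ) : b (i + 1) * b j = b i * b (j + 1) +
    (1 - Qv) * (a (i + 1) * b j - a (j + 1) * b i) +
    Qv * (eW (i + 1) * b j - eW (j + 1) * b i) := by
  linear_combination b j * y1_mul_b i - b i * y1_mul_b j

theorem x_step (i j : ℕ) :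
    x (i + 1) * x j = x i * x (j + 1) + eW (i + 1) * x j - eW (j + 1) * x i := by
  linear_combination x j * x_succ i - x i * x_succ j

/-- The interval sums. -/
def K (f : ℕ → ℕ → V k) : ℕ → ℕ → ℕ → V k
  | 0, _, _ => 0
  | 1, i, j => f i j
  | n + 2, i, j => f i j + Qv ^ (n + 1) * f j i + Qv * K f n (i + 1) (j - 1)

/-- An atom among two active vertices. -/
def S (i j : ℕ) : V 2 := a i * b j

/-- `d₋ d₊` of an atom. -/
def R (i j : ℕ) : V 2 :=
  b i * b (j + 1) + Qv * S (j + 1) i + Qv * (Iv j - 1) * (eW (j + 1) * b i)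

/-- `d₋` of an atom. -/
def R' (i j : ℕ) : V 1 := x i * x (j + 1) + Qv * Iv j * (eW (j + 1) * x i)

theorem dMinus_dPlus_S (i j : ℕ) : dMinus (dPlus (S i j)) = R i j := by
  rw [S, dPlus_ab, dMinus_up_mul, dMinus_c, R, S]
  ring

theorem dMinus_S (i j : ℕ) : dMinus (S i j) = R' i j := by
  rw [S, a, dMinus_up_mul, dMinus_b, R']
  ring

theorem K_map {l : ℕ} (L : V k → V l) (hadd : ∀ F G, L (F + G) = L F + L G)
    (hC : ∀ (t : Polynomial ℤ) F, L (C t * F) = C t * L F) (h0 : L 0 = 0) (f : ℕ → ℕ → V k) :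
    ∀ n i j, L (K f n i j) = K (fun i j => L (f i j)) n i j
  | 0, _, _ => h0
  | 1, _, _ => rfl
  | n + 2, i, j => by
    rw [K, K, hadd, hadd, Qv, ← map_pow, hC, hC, K_map L hadd hC h0 f n, map_pow]

/-- Combinations of `e_λ` times generators with coefficients in `ℕ[q]`. -/
inductive Cone (G : Set (V k)) : V k → Prop
  | gen {F : V k} : F ∈ G → Cone G F
  | zero : Cone G 0
  | add {F F' : V k} : Cone G F → Cone G F' → Cone G (F + F')
  | smulQ (s : Polynomial ℕ) {F : V k} : Cone G F → Cone G (C (natQ s) * F)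
  | smulE (j : ℕ) {F : V k} : Cone G F → Cone G (eW j * F)

theorem natQ_X : natQ Polynomial.X = qq := by simp [natQ, qq]

theorem Cone.qmul {G : Set (V k)} {F : V k} (h : Cone G F) : Cone G (Qv * F) := by
  simpa only [Qv, natQ_X] using h.smulQ Polynomial.X

theorem Cone.qpow {G : Set (V k)} {F : V k} (h : Cone G F) (n : ℕ) : Cone G (Qv ^ n * F) := by
  induction n with
  | zero => simpa using h
  | succ n ih => rw [pow_succ', mul_assoc]; exact ih.qmul

theorem Cone.imul {G : Set (V k)} {F : V k} (h : Cone G F) (r : ℕ) : Cone G (Iv r * F) := by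
  induction r with
  | zero => rw [Iv_zero, zero_mul]; exact Cone.zero
  | succ r ih => rw [Iv_succ, add_mul, one_mul, mul_assoc]; exact h.add ih.qmul

theorem Cone.map {l : ℕ} {G : Set (V k)} {G' : Set (V l)} (L : V k → V l)
    (hadd : ∀ F F', L (F + F') = L F + L F')
    (hC : ∀ (t : Polynomial ℤ) F, L (C t * F) = C t * L F)
    (hE : ∀ j F, L (eW j * F) = eW j * L F) (hG : ∀ F ∈ G, Cone G' (L F)) {F : V k}
    (h : Cone G F) : Cone G' (L F) := by
  induction h with
  | gen h => exact hG _ h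
  | zero => rw [show L 0 = 0 by simpa using hadd 0 0]; exact Cone.zero
  | add _ _ ih ih' => rw [hadd]; exact ih.add ih'
  | smulQ s _ ih => rw [hC]; exact ih.smulQ s
  | smulE j _ ih => rw [hE]; exact ih.smulE j

/-- Generators for one active vertex. -/
def G1 : Set (V 1) := Set.range x

/-- Generators for two active vertices. -/
def G2 : Set (V 2) :=
  Set.range z ∪ {F | ∃ n j, 1 ≤ n ∧ n ≤ j ∧ F = K S n 0 j}

theorem cone_x (r : ℕ) : Cone G1 (x r) := Cone.gen ⟨r, rfl⟩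

theorem cone_z (r : ℕ) : Cone G2 (z r) := Cone.gen (Or.inl ⟨r, rfl⟩)

theorem cone_b : ∀ i, Cone G2 (b i)
  | 0 => by rw [b_zero, ← z_zero]; exact cone_z 0
  | i + 1 => Cone.gen (Or.inr ⟨1, i + 1, le_rfl, by omega, by rw [K, S, a_zero, one_mul]⟩)

theorem Qv_pow_eq (n : ℕ) : (Qv ^ n : V k) = 1 - (1 - Qv) * Iv n := by
  induction n with
  | zero => rw [Iv_zero]; ring
  | succ n ih => rw [Iv_succ, pow_succ, ih]; ring

theorem claim : ∀ n i j, i + n ≤ j → ∃ T, Cone G2 T ∧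
    K R n i j + S i (j + 1) = Iv n * (b i * b (j + 1)) + K S (n + 1) i (j + 1) + T
  | 0, i, j, _ => ⟨0, Cone.zero, by simp [K, Iv_zero]⟩
  | 1, i, j, h => by
    obtain ⟨d, rfl⟩ : ∃ d, j = d + 1 := ⟨j - 1, by omega⟩
    refine ⟨Qv * (Qv * (Iv d * (eW (d + 2) * b i))),
      ((((cone_b i).smulE _).imul d).qmul).qmul, ?_⟩
    simp only [K]
    rw [R, Iv_succ d, Iv_one]
    ring
  | n + 2, i, j, h => by
    obtain ⟨e, rfl⟩ : ∃ e, j = (n + 1 + e) + 1 := ⟨j - n - 2, by omega⟩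
    obtain ⟨T, hT, hK⟩ := claim n (i + 1) (n + 1 + e) (by omega)
    refine ⟨Qv * T + Qv ^ 2 * (Iv n * (eW (i + 1) * b (n + 1 + e + 1))) +
      Qv ^ (n + 2) * (Iv i * (eW (i + 1) * b (n + 1 + e + 1))) +
      Qv ^ (n + 3) * (Iv e * (eW (n + 1 + e + 1 + 1) * b i)), ?_, ?_⟩
    · exact ((hT.qmul.add ((((cone_b _).smulE _).imul n).qpow 2)).add
        ((((cone_b _).smulE _).imul i).qpow _)).add ((((cone_b _).smulE _).imul e).qpow _)
    · simp only [K, Nat.add_sub_cancel]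
      rw [R, R, Iv_succ (n + 1 + e), Iv_add (n + 1) e, Iv_succ (n + 1), Iv_succ n]
      have hk := b_step i (n + 1 + e + 1)
      have hq := Qv_pow_eq (k := 2) n
      simp only [S] at hK ⊢
      simp only [pow_add, hq] at hK ⊢
      linear_combination Qv * hK + ((1 - (1 - Qv) * Iv n) * Qv + Qv * Iv n) * hk

theorem claim' : ∀ n i j, i + n ≤ j → ∃ T, Cone G1 T ∧
    K R' n i j = Iv n * (x i * x (j + 1)) + T
  | 0, i, j, _ => ⟨0, Cone.zero, by simp [K, Iv_zero]⟩
  | 1, i, j, _ => by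
    refine ⟨Qv * (Iv j * (eW (j + 1) * x i)), (((cone_x i).smulE _).imul j).qmul, ?_⟩
    simp only [K]
    rw [R', Iv_one]
    ring
  | n + 2, i, j, h => by
    obtain ⟨e, rfl⟩ : ∃ e, j = (n + 1 + e) + 1 := ⟨j - n - 2, by omega⟩
    obtain ⟨T, hT, hK⟩ := claim' n (i + 1) (n + 1 + e) (by omega)
    refine ⟨Qv * T + Qv * (Iv n * (eW (i + 1) * x (n + 1 + e + 1))) +
      Qv ^ (n + 1) * (Iv (i + 1) * (eW (i + 1) * x (n + 1 + e + 1))) +
      Qv ^ (n + 2) * (Iv (e + 1) * (eW (n + 1 + e + 1 + 1) * x i)), ?_, ?_⟩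
    · exact ((hT.qmul.add ((((cone_x _).smulE _).imul n).qmul)).add
        ((((cone_x _).smulE _).imul _).qpow _)).add ((((cone_x _).smulE _).imul _).qpow _)
    · simp only [K, Nat.add_sub_cancel]
      rw [R', R', Iv_succ (n + 1 + e), Iv_add (n + 1) e, Iv_succ (n + 1), Iv_succ n, Iv_succ i,
        Iv_succ e]
      have hk := x_step i (n + 1 + e + 1)
      have hq := Qv_pow_eq (k := 1) n
      simp only [pow_add, hq] at hK ⊢
      linear_combination Qv * hK + ((1 - (1 - Qv) * Iv n) * Qv + Qv * Iv n) * hk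

theorem dMinus_G2 : ∀ F ∈ G2, Cone G1 (dMinus F) := by
  rintro F (⟨r, rfl⟩ | ⟨n, j, hn, hj, rfl⟩)
  · rw [dMinus_z]
    exact (cone_x _).imul _
  · rw [K_map dMinus dMinus_add dMinus_C_mul dMinus_zero]
    simp only [dMinus_S]
    obtain ⟨T, hT, h⟩ := claim' n 0 j (by omega)
    rw [h, x_zero, one_mul]
    exact ((cone_x _).imul _).add hT

theorem dMinus_dPlus_G2 : ∀ F ∈ G2, Cone G2 (dMinus (dPlus F)) := by
  rintro F (⟨r, rfl⟩ | ⟨n, j, hn, hj, rfl⟩)
  · cases r with
    | zero =>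
      rw [dPlus_z_zero, dMinus_w]
      exact (cone_z _).imul _
    | succ r =>
      have e : dMinus (dPlus (z (r + 1))) = z (r + 2) + Qv * (Iv (r + 1) * b (r + 2)) := by
        rw [dPlus_z, dMinus_add, show (Qv ^ 2 * yv 0 : V 3) = up (Qv ^ 2 * yv 0 : V 2) by simp [Qv],
          dMinus_up_mul, dMinus_w, dMinus_w, b, Iv_succ (r + 1)]
        ring
      rw [e]
      exact (cone_z _).add ((cone_b _).imul _).qmul
  · rw [K_map (fun F => dMinus (dPlus F)) (fun F G => by rw [dPlus_add, dMinus_add])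
      (fun t F => by rw [dPlus_C_mul, dMinus_C_mul]) (by rw [dPlus_zero, dMinus_zero])]
    simp only [dMinus_dPlus_S]
    obtain ⟨m, rfl⟩ : ∃ m, n = m + 1 := ⟨n - 1, by omega⟩
    obtain ⟨T, hT, h⟩ := claim (m + 1) 0 j (by omega)
    have e : K R (m + 1) 0 j = Qv * (Iv m * b (j + 1)) + K S (m + 2) 0 (j + 1) + T := by
      rw [b_zero, Iv_succ, one_mul, S, a_zero, one_mul] at h
      linear_combination h
    rw [e]
    exact (((cone_b _).imul m).qmul.add
      (Cone.gen (Or.inr ⟨m + 2, j + 1, by omega, by omega, rfl⟩))).add hT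

/-- The cones for at most three active vertices. -/
def P : ∀ k, V k → Prop
  | 0 => Cone {1}
  | 1 => Cone G1
  | 2 => Cone G2
  | 3 => Cone (dPlus '' G2)
  | _ => fun _ => False

theorem P_plus : ∀ (k : ℕ) (F : V k), k + 1 ≤ 3 → P k F → P (k + 1) (dPlus F)
  | 0, F, _, h => by
    refine Cone.map dPlus dPlus_add dPlus_C_mul dPlus_eW_mul (fun F hF => ?_) h
    rw [Set.mem_singleton_iff.1 hF, dPlus_one]
    exact cone_x 0
  | 1, F, _, h => by
    refine Cone.map dPlus dPlus_add dPlus_C_mul dPlus_eW_mul (fun F hF => ?_) h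
    obtain ⟨r, rfl⟩ := hF
    rw [dPlus_x]
    exact cone_b r
  | 2, F, _, h =>
    Cone.map (G' := dPlus '' G2) dPlus dPlus_add dPlus_C_mul dPlus_eW_mul
      (fun F hF => Cone.gen ⟨F, hF, rfl⟩) h
  | _ + 3, _, hk, _ => absurd hk (by omega)

theorem P_minus : ∀ (k : ℕ) (F : V (k + 1)), k + 1 ≤ 3 → P (k + 1) F → P k (dMinus F)
  | 0, F, _, h => by
    refine Cone.map dMinus dMinus_add dMinus_C_mul dMinus_eW_mul (fun F hF => ?_) h
    obtain ⟨r, rfl⟩ := hF
    rw [dMinus_x, ← mul_one (Iv (r + 1) * eW (r + 1)), mul_assoc]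
    exact ((Cone.gen (Set.mem_singleton _)).smulE _).imul _
  | 1, F, _, h => Cone.map dMinus dMinus_add dMinus_C_mul dMinus_eW_mul dMinus_G2 h
  | 2, F, _, h => by
    refine Cone.map dMinus dMinus_add dMinus_C_mul dMinus_eW_mul (fun F hF => ?_) h
    obtain ⟨F', hF', rfl⟩ := hF
    exact dMinus_dPlus_G2 F' hF'
  | _ + 3, _, hk, _ => absurd hk (by omega)

theorem isNatQ_of_P (F : V 0) (h : P 0 F) : IsNatQ F := by
  induction h with
  | gen h =>
    rw [Set.mem_singleton_iff.1 h]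
    intro d
    refine ⟨if 0 = d then 1 else 0, ?_⟩
    rw [MvPolynomial.coeff_one]
    split_ifs <;> simp
  | zero => exact fun d => ⟨0, by simp⟩
  | add _ _ ih ih' =>
    intro d
    obtain ⟨s, hs⟩ := ih d
    obtain ⟨t, ht⟩ := ih' d
    exact ⟨s + t, by rw [map_add, hs, ht, coeff_add]⟩
  | smulQ s _ ih =>
    intro d
    obtain ⟨t, ht⟩ := ih d
    exact ⟨s * t, by rw [map_mul, ht, coeff_C_mul]⟩
  | @smulE j F _ ih =>
    cases j with
    | zero => simpa [eW] using ih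
    | succ j =>
      intro d
      rw [eW, coeff_X_mul']
      split_ifs
      · exact ih _
      · exact ⟨0, by simp⟩

/-- `h i ≤ i + 2` implies elementary positivity. -/
theorem ePositive_three {n : ℕ} {h : Fin n → Fin n} (hh : IsHess h)
    (hK : ∀ i, (h i).1 ≤ i.1 + 2) : EPositive h :=
  ePositive_of_closed 3 P (Cone.gen (Set.mem_singleton _)) P_plus P_minus isNatQ_of_P hh
    fun i => by have := hK i; omega

end Vale.Agent.P066.Small
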