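import Vale.Agent.P066.Defs

/-!
Colour functions of states.

A state gives a polynomial to every list of distinct colours of the active vertices (newest first).
Along `sPlus` and `sMinus` the invariant `Exch` persists: under the exchange of two adjacent colours
`a, b` a state is symmetric if neither is active and is `K + x_b L`, `K + q x_a L` with symmetric
`K, L` otherwise.  This contains the symmetry of `χ_G` and the Hecke relation of the states.
-/

noncomputable section

namespace Vale.Agent.P066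

open Finset MvPolynomial

/-- Polynomials in `N` colours over `ℤ[q]`. -/
abbrev R (N : ℕ) := MvPolynomial (Fin N) (Polynomial ℤ)

/-- A state: a polynomial for every list of colours of the active vertices. -/
abbrev St (N : ℕ) := List (Fin N) → R N

variable {N : ℕ}

/-- The exchange of two colours. -/
def swapX (a b : Fin N) : R N →ₐ[Polynomial ℤ] R N := rename (Equiv.swap a b)

theorem swapX_C (a b : Fin N) (r : Polynomial ℤ) : swapX a b (C r) = C r := by simp [swapX]

theorem swapX_left (a b : Fin N) : swapX a b (X a) = X b := by simp [swapX]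

theorem swapX_right (a b : Fin N) : swapX a b (X b) = X a := by simp [swapX]

theorem swapX_other {a b j : Fin N} (ha : j ≠ a) (hb : j ≠ b) : swapX a b (X j) = X j := by
  simp [swapX, Equiv.swap_apply_of_ne_of_ne ha hb]

/-- The two values `K + x_b L` and `K + q x_a L`. -/
def Rel (a b : Fin N) (A B : R N) : Prop :=
  ∃ K L : R N, swapX a b K = K ∧ swapX a b L = L ∧ A = K + X b * L ∧ B = K + C qq * X a * L

theorem Rel.of_sym {a b : Fin N} {A : R N} (h : swapX a b A = A) : Rel a b A A :=
  ⟨A, 0, h, map_zero _, by ring, by ring⟩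

theorem Rel.add {a b : Fin N} {A B A' B' : R N} (h : Rel a b A B) (h' : Rel a b A' B') :
    Rel a b (A + A') (B + B') := by
  obtain ⟨K, L, h1, h2, rfl, rfl⟩ := h
  obtain ⟨K', L', h1', h2', rfl, rfl⟩ := h'
  exact ⟨K + K', L + L', by rw [map_add, h1, h1'], by rw [map_add, h2, h2'], by ring, by ring⟩

theorem Rel.smul {a b : Fin N} {A B P : R N} (hP : swapX a b P = P) (h : Rel a b A B) :
    Rel a b (P * A) (P * B) := by
  obtain ⟨K, L, h1, h2, rfl, rfl⟩ := h
  exact ⟨P * K, P * L, by rw [map_mul, h1, hP], by rw [map_mul, h2, hP], by ring, by ring⟩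

theorem Rel.sum {a b : Fin N} {ι : Type*} (s : Finset ι) (A B : ι → R N)
    (h : ∀ i ∈ s, Rel a b (A i) (B i)) : Rel a b (∑ i ∈ s, A i) (∑ i ∈ s, B i) := by
  classical
  induction s using Finset.induction_on with
  | empty => simpa using Rel.of_sym (a := a) (b := b) (map_zero _)
  | insert i s hi ih =>
    rw [sum_insert hi, sum_insert hi]
    exact (h i (mem_insert_self i s)).add (ih fun j hj => h j (mem_insert_of_mem hj))

/-- The retired vertex and the one which moves have the two colours. -/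
theorem Rel.retire {a b : Fin N} {A B : R N} (h : Rel a b A B) :
    Rel a b (X b * B) (C qq * X a * A) := by
  obtain ⟨K, L, h1, h2, rfl, rfl⟩ := h
  refine ⟨C qq * (X a * X b) * L, K, ?_, h1, by ring, by ring⟩
  rw [map_mul, map_mul, map_mul, swapX_C, swapX_left, swapX_right, h2]
  ring

/-- The retired vertex takes one of the two colours. -/
theorem Rel.retire_sym {a b : Fin N} {A B : R N} (h : Rel a b A B) :
    swapX a b (X a * A + X b * B) = X a * A + X b * B := by
  obtain ⟨K, L, h1, h2, rfl, rfl⟩ := h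
  simp only [map_add, map_mul, swapX_C, swapX_left, swapX_right, h1, h2]
  ring

/-- The invariant of a state. -/
structure Exch (S : St N) : Prop where
  none : ∀ a b : Fin N, b.1 = a.1 + 1 → ∀ c : List (Fin N), c.Nodup → a ∉ c → b ∉ c →
    swapX a b (S c) = S c
  one : ∀ a b : Fin N, b.1 = a.1 + 1 → ∀ l₁ l₂ : List (Fin N), (l₁ ++ a :: l₂).Nodup →
    b ∉ l₁ ++ a :: l₂ → Rel a b (S (l₁ ++ a :: l₂)) (S (l₁ ++ b :: l₂))
  two : ∀ a b : Fin N, b.1 = a.1 + 1 → ∀ l₁ l₂ l₃ : List (Fin N),
    (l₁ ++ b :: l₂ ++ a :: l₃).Nodup →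
    Rel a b (S (l₁ ++ b :: l₂ ++ a :: l₃)) (S (l₁ ++ a :: l₂ ++ b :: l₃))

/-- A new vertex adjacent to all active ones. -/
def sPlus (S : St N) : St N := fun c => S c.tail

/-- The weight of the colour of a retired vertex against the active colours. -/
def weight (c : List (Fin N)) (j : Fin N) : R N :=
  C (qq ^ c.countP (fun i => decide (j < i)))

/-- Retire the oldest active vertex. -/
def sMinus (S : St N) : St N := fun c =>
  ∑ j ∈ univ.filter (fun j => j ∉ c), weight c j * (X j * S (c ++ [j]))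

theorem exch_one : Exch (N := N) (fun _ => 1) :=
  ⟨fun _ _ _ _ _ _ _ => map_one _, fun _ _ _ _ _ _ _ => Rel.of_sym (map_one _),
    fun _ _ _ _ _ _ _ => Rel.of_sym (map_one _)⟩

theorem Exch.plus {S : St N} (h : Exch S) : Exch (sPlus S) := by
  refine ⟨?_, ?_, ?_⟩
  · intro a b hab c hc ha hb
    exact h.none a b hab c.tail (hc.sublist c.tail_sublist)
      (fun m => ha (List.mem_of_mem_tail m)) (fun m => hb (List.mem_of_mem_tail m))
  · intro a b hab l₁ l₂ hc hb
    rcases l₁ with _ | ⟨j, t⟩
    · obtain ⟨ha, hl⟩ := List.nodup_cons.1 hc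
      exact Rel.of_sym (h.none a b hab l₂ hl ha (fun m => hb (List.mem_cons_of_mem _ m)))
    · exact h.one a b hab t l₂ (List.nodup_cons.1 hc).2 (fun m => hb (List.mem_cons_of_mem _ m))
  · intro a b hab l₁ l₂ l₃ hc
    rcases l₁ with _ | ⟨j, t⟩
    · obtain ⟨hb, hl⟩ := List.nodup_cons.1 hc
      exact h.one a b hab l₂ l₃ hl hb
    · exact h.two a b hab t l₂ l₃ (List.nodup_cons.1 hc).2

theorem swapX_weight (a b : Fin N) (c : List (Fin N)) (j : Fin N) :
    swapX a b (weight c j) = weight c j := swapX_C a b _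

/-- Colours other than `a, b` do not separate them. -/
theorem lt_iff_of_adjacent {a b j : Fin N} (hab : b.1 = a.1 + 1) (ha : j ≠ a) (hb : j ≠ b) :
    (j < a ↔ j < b) ∧ (a < j ↔ b < j) := by
  have h1 : j.1 ≠ a.1 := fun e => ha (Fin.ext e)
  have h2 : j.1 ≠ b.1 := fun e => hb (Fin.ext e)
  simp only [Fin.lt_def]
  omega

theorem countP_adjacent {a b : Fin N} (hab : b.1 = a.1 + 1) {c : List (Fin N)} (ha : a ∉ c)
    (hb : b ∉ c) :
    c.countP (fun i => decide (a < i)) = c.countP (fun i => decide (b < i)) := by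
  refine List.countP_congr fun i hi => ?_
  simpa using (lt_iff_of_adjacent hab (fun e => ha (e ▸ hi)) (fun e => hb (e ▸ hi))).2

theorem Exch.minus_none {S : St N} (h : Exch S) {a b : Fin N} (hab : b.1 = a.1 + 1)
    {c : List (Fin N)} (hc : c.Nodup) (ha : a ∉ c) (hb : b ∉ c) :
    swapX a b (sMinus S c) = sMinus S c := by
  have hne : a ≠ b := fun e => by rw [e] at hab; omega
  set J := univ.filter (fun j => j ∉ c) with hJ
  have hbJ : b ∈ J := mem_filter.2 ⟨mem_univ _, hb⟩
  have haJ : a ∈ J.erase b := mem_erase.2 ⟨hne, mem_filter.2 ⟨mem_univ _, ha⟩⟩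
  have hw : weight c b = weight c a := by rw [weight, weight, countP_adjacent hab ha hb]
  have hnd : (c ++ [a]).Nodup := List.nodup_append'.2
    ⟨hc, List.nodup_singleton a, fun x hx hx' => ha (List.mem_singleton.1 hx' ▸ hx)⟩
  have hpair := (h.one a b hab c [] hnd (by simp [hb, hne.symm])).retire_sym
  rw [sMinus, ← add_sum_erase J _ hbJ, ← add_sum_erase (J.erase b) _ haJ, map_add, map_add,
    map_sum, hw]
  have hrest : ∀ j ∈ (J.erase b).erase a,
      swapX a b (weight c j * (X j * S (c ++ [j]))) = weight c j * (X j * S (c ++ [j])) := by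
    intro j hj
    simp only [mem_erase] at hj
    have hjc : j ∉ c := (mem_filter.1 hj.2.2).2
    have hs : swapX a b (S (c ++ [j])) = S (c ++ [j]) := by
      refine h.none a b hab _ (List.nodup_append'.2 ⟨hc, List.nodup_singleton j,
        fun x hx hx' => hjc (List.mem_singleton.1 hx' ▸ hx)⟩) ?_ ?_
      · simp [ha, Ne.symm hj.1]
      · simp [hb, Ne.symm hj.2.1]
    rw [map_mul, map_mul, swapX_weight, swapX_other hj.1 hj.2.1, hs]
  rw [sum_congr rfl hrest]
  simp only [map_add, map_mul, swapX_weight] at hpair ⊢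
  linear_combination (weight c a) * hpair

theorem Exch.minus_one {S : St N} (h : Exch S) {a b : Fin N} (hab : b.1 = a.1 + 1)
    (l₁ l₂ : List (Fin N)) (hc : (l₁ ++ a :: l₂).Nodup) (hb : b ∉ l₁ ++ a :: l₂) :
    Rel a b (sMinus S (l₁ ++ a :: l₂)) (sMinus S (l₁ ++ b :: l₂)) := by
  have hne : a ≠ b := fun e => by rw [e] at hab; omega
  simp only [List.mem_append, List.mem_cons, not_or] at hb
  have ha : a ∉ l₁ ∧ a ∉ l₂ := by
    have := (List.nodup_middle.1 hc)
    simpa only [List.nodup_cons, List.mem_append, not_or] using (List.nodup_cons.1 this).1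
  set J := univ.filter (fun j => j ≠ a ∧ j ≠ b ∧ j ∉ l₁ ∧ j ∉ l₂) with hJ
  have hA : univ.filter (fun j => j ∉ l₁ ++ a :: l₂) = insert b J := by
    ext j
    by_cases hj : j = b
    · subst hj; simp [hb.1, hb.2.1, hb.2.2]
    · simp [hJ, hj]; tauto
  have hB : univ.filter (fun j => j ∉ l₁ ++ b :: l₂) = insert a J := by
    ext j
    by_cases hj : j = a
    · subst hj; simp [ha.1, ha.2, hne]
    · simp [hJ, hj]; tauto
  rw [sMinus, sMinus, hA, hB, sum_insert (by simp [hJ]), sum_insert (by simp [hJ])]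
  refine Rel.add ?_ (Rel.sum _ _ _ fun j hj => ?_)
  · have hnd : (l₁ ++ b :: l₂ ++ a :: []).Nodup := by
      have hperm : (l₁ ++ b :: l₂ ++ [a]).Perm (b :: (l₁ ++ a :: l₂)) :=
        (List.perm_middle.append_right [a]).trans (List.Perm.cons b
          (List.perm_append_singleton a _ |>.trans List.perm_middle.symm))
      exact hperm.nodup_iff.2 (List.nodup_cons.2 ⟨by simp [hb.1, hb.2.1, hb.2.2], hc⟩)
    have hR := (h.two a b hab l₁ l₂ [] hnd).retire
    have hP : (l₁ ++ b :: l₂).countP (fun i => decide (a < i)) =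
        (l₁ ++ a :: l₂).countP (fun i => decide (b < i)) + 1 := by
      rw [List.countP_append, List.countP_cons, List.countP_append, List.countP_cons,
        countP_adjacent hab ha.1 hb.1, countP_adjacent hab ha.2 hb.2.2]
      have hlt : a < b := Fin.lt_def.2 (by omega)
      simp [hlt, not_lt.2 hlt.le, add_assoc]
    have hR' := Rel.smul (swapX_weight a b (l₁ ++ a :: l₂) b) hR
    convert hR' using 1
    · rw [weight, weight, hP, pow_succ, C_mul]
      ring
  · simp only [hJ, mem_filter, mem_univ, true_and] at hj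
    obtain ⟨hja, hjb, hj1, hj2⟩ := hj
    have hw : weight (l₁ ++ b :: l₂) j = weight (l₁ ++ a :: l₂) j := by
      rw [weight, weight]
      simp [List.countP_append, List.countP_cons, (lt_iff_of_adjacent hab hja hjb).1]
    rw [hw, ← mul_assoc, ← mul_assoc]
    refine Rel.smul (by rw [map_mul, swapX_weight, swapX_other hja hjb]) ?_
    simp only [List.append_assoc, List.cons_append]
    refine h.one a b hab l₁ (l₂ ++ [j]) ?_ ?_
    · rw [← List.cons_append, ← List.append_assoc]
      exact List.nodup_append'.2 ⟨hc, List.nodup_singleton j, fun x hx hx' => by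
        obtain rfl := List.mem_singleton.1 hx'
        simp [hja, hj1, hj2] at hx⟩
    · simp [hb.1, hb.2.1, hb.2.2, Ne.symm hjb]

theorem Exch.minus_two {S : St N} (h : Exch S) {a b : Fin N} (hab : b.1 = a.1 + 1)
    (l₁ l₂ l₃ : List (Fin N)) (hc : (l₁ ++ b :: l₂ ++ a :: l₃).Nodup) :
    Rel a b (sMinus S (l₁ ++ b :: l₂ ++ a :: l₃)) (sMinus S (l₁ ++ a :: l₂ ++ b :: l₃)) := by
  have hJ : univ.filter (fun j => j ∉ l₁ ++ a :: l₂ ++ b :: l₃) =
      univ.filter (fun j => j ∉ l₁ ++ b :: l₂ ++ a :: l₃) := by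
    ext j
    simp only [mem_filter, mem_univ, true_and, List.mem_append, List.mem_cons]
    tauto
  rw [sMinus, sMinus, hJ]
  refine Rel.sum _ _ _ fun j hj => ?_
  have hjc : j ∉ l₁ ++ b :: l₂ ++ a :: l₃ := (mem_filter.1 hj).2
  have hja : j ≠ a := fun e => hjc (by simp [e])
  have hjb : j ≠ b := fun e => hjc (by simp [e])
  have hw : weight (l₁ ++ a :: l₂ ++ b :: l₃) j = weight (l₁ ++ b :: l₂ ++ a :: l₃) j := by
    rw [weight, weight]
    simp [List.countP_append, List.countP_cons, (lt_iff_of_adjacent hab hja hjb).1]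
  rw [hw, ← mul_assoc, ← mul_assoc]
  refine Rel.smul (by rw [map_mul, swapX_weight, swapX_other hja hjb]) ?_
  rw [List.append_assoc (l₁ ++ b :: l₂), List.cons_append, List.append_assoc (l₁ ++ a :: l₂),
    List.cons_append]
  refine h.two a b hab l₁ l₂ (l₃ ++ [j]) ?_
  rw [← List.cons_append, ← List.append_assoc]
  exact List.nodup_append'.2 ⟨hc, List.nodup_singleton j,
    fun x hx hx' => hjc (List.mem_singleton.1 hx' ▸ hx)⟩

theorem Exch.minus {S : St N} (h : Exch S) : Exch (sMinus S) :=
  ⟨fun _ _ hab _ hc ha hb => h.minus_none hab hc ha hb,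
    fun _ _ hab l₁ l₂ hc hb => h.minus_one hab l₁ l₂ hc hb,
    fun _ _ hab l₁ l₂ l₃ hc => h.minus_two hab l₁ l₂ l₃ hc⟩

end Vale.Agent.P066
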