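import Vale.Agent.P066.Series

/-!
The operators `dPlus`, `dMinus` compute the colour functions of states.
-/

noncomputable section

namespace Vale.Agent.P066

open Finset MvPolynomial

variable {N : ℕ}

/-- Evaluation of a state in `N` colours: `W` is all colours and `y_i` the colour `i`. -/
def evalV (N k : ℕ) : V k →ₐ[Polynomial ℤ] R N :=
  aeval (Sum.elim (fun j => esymm (Fin N) (Polynomial ℤ) (j + 1)) fun i => xv N i.1)

theorem evalV_y (k : ℕ) (i : Fin k) : evalV N k (X (Sum.inr i)) = xv N i.1 := by simp [evalV]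

theorem evalV_eW (k j : ℕ) : evalV N k (eW j) = esymm (Fin N) (Polynomial ℤ) j := by
  cases j with
  | zero => simp [eW, esymm_zero]
  | succ j => simp [eW, evalV]

theorem evalV_rename_castSucc (k : ℕ) (F : V k) :
    evalV N (k + 1) (rename (Sum.map id Fin.castSucc) F) = evalV N k F := by
  rw [← AlgHom.comp_apply]
  congr 1
  ext i
  rcases i with j | i <;> simp [evalV]

theorem swapX_esymm (a b : Fin N) (r : ℕ) :
    swapX a b (esymm (Fin N) (Polynomial ℤ) r) = esymm (Fin N) (Polynomial ℤ) r :=
  rename_esymm _ _ r _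

theorem evalV_swapY {k : ℕ} (hk : k ≤ N) (a b : Fin k) (F : V k) :
    evalV N k (swapY a b F) = swapX (Fin.castLE hk a) (Fin.castLE hk b) (evalV N k F) := by
  rw [← AlgHom.comp_apply, ← AlgHom.comp_apply]
  congr 1
  ext i
  rcases i with j | i
  · simp [evalV, swapY, Equiv.swap_apply_of_ne_of_ne, swapX_esymm]
  · have hx : ∀ i : Fin k, xv N i.1 = X (Fin.castLE hk i) := fun i =>
      (xv_eq (Nat.lt_of_lt_of_le i.2 hk)).trans rfl
    simp only [evalV, swapY, AlgHom.comp_apply, aeval_X, rename_X, Sum.elim_inr]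
    rw [hx, swapX, rename_X]
    rcases eq_or_ne i a with rfl | ha
    · simp [hx]
    · rcases eq_or_ne i b with rfl | hb
      · simp [hx]
      · rw [Equiv.swap_apply_of_ne_of_ne (by simpa using ha) (by simpa using hb),
          Equiv.swap_apply_of_ne_of_ne (fun e => ha (Fin.castLE_injective hk e))
            (fun e => hb (Fin.castLE_injective hk e))]
        simp [hx]

theorem X_sub_X_ne {a b : Fin N} (h : a ≠ b) : (X b - X a : R N) ≠ 0 :=
  sub_ne_zero.2 fun e => h (X_injective e).symm

/-- `Rel` is the Hecke relation. -/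
theorem Rel.hecke {a b : Fin N} {A B : R N} (h : Rel a b A B) :
    (X b - X a) * (B - swapX a b A) = (C qq - 1) * X a * (A - swapX a b A) := by
  obtain ⟨K, L, h1, h2, rfl, rfl⟩ := h
  rw [map_add, map_mul, swapX_right, h1, h2]
  ring

theorem evalV_opT {k : ℕ} (hk : k ≤ N) {a b : Fin k} (hab : a ≠ b) {F : V k} {B : R N}
    (h : Rel (Fin.castLE hk a) (Fin.castLE hk b) (evalV N k F) B) :
    evalV N k (opT a b F) = B := by
  have hne : (X (Fin.castLE hk b) - X (Fin.castLE hk a) : R N) ≠ 0 :=
    X_sub_X_ne fun e => hab (Fin.castLE_injective hk e)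
  have hd := congrArg (evalV N k) (divDiff_spec a b F)
  have hx : ∀ i : Fin k, xv N i.1 = X (Fin.castLE hk i) := fun i =>
    (xv_eq (Nat.lt_of_lt_of_le i.2 hk)).trans rfl
  simp only [map_sub, map_mul, evalV_y, evalV_swapY hk, hx] at hd
  refine mul_left_cancel₀ hne ?_
  have hC : evalV N k (C (qq - 1)) = C qq - 1 := by simp [evalV]
  rw [opT, map_add, map_mul, map_mul, hC, evalV_y, hx, evalV_swapY hk, mul_add]
  linear_combination -h.hecke - (C qq - 1) * X (Fin.castLE hk a) * hd

/-- The colours `a, a + 1, …, b - 1`. -/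
def seg (N a b : ℕ) : List (Fin N) :=
  (List.range' a (b - a)).filterMap fun i => if h : i < N then some ⟨i, h⟩ else none

theorem seg_self (a : ℕ) : seg N a a = [] := by simp [seg]

theorem seg_cons {a b : ℕ} (h : a < b) (ha : a < N) :
    seg N a b = ⟨a, ha⟩ :: seg N (a + 1) b := by
  rw [seg, show b - a = b - (a + 1) + 1 by omega, List.range'_succ, List.filterMap_cons]
  simp [ha, seg]

theorem seg_append {a b c : ℕ} (h : a ≤ b) (h' : b ≤ c) :
    seg N a c = seg N a b ++ seg N b c := by
  rw [seg, seg, seg, ← List.filterMap_append]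
  congr 1
  have := List.range'_append_1 (s := a) (m := b - a) (n := c - b)
  rw [show a + (b - a) = b by omega, show b - a + (c - b) = c - a by omega] at this
  exact this.symm

theorem seg_concat {a b : ℕ} (h : a ≤ b) (hb : b < N) :
    seg N a (b + 1) = seg N a b ++ [⟨b, hb⟩] := by
  rw [seg_append h (Nat.le_succ b), seg_cons (Nat.lt_succ_self b) hb, seg_self]

theorem mem_seg {a b : ℕ} {i : Fin N} : i ∈ seg N a b ↔ a ≤ i.1 ∧ i.1 < b := by
  simp only [seg, List.mem_filterMap, List.mem_range'_1]
  constructor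
  · rintro ⟨x, hx, e⟩
    by_cases hxN : x < N
    · rw [dif_pos hxN, Option.some_inj] at e
      subst e
      simp only
      omega
    · rw [dif_neg hxN] at e
      simp at e
  · exact fun hi => ⟨i.1, ⟨hi.1, by omega⟩, by simp⟩

theorem nodup_seg (a b : ℕ) : (seg N a b).Nodup := by
  refine List.Nodup.filterMap (fun x y i hx hy => ?_) List.nodup_range'
  simp only [Option.mem_def] at hx hy
  split_ifs at hx hy with h1 h2
  rw [Option.some_inj] at hx hy
  exact congrArg Fin.val (hx.trans hy.symm)

theorem length_seg {a b : ℕ} (hb : b ≤ N) : (seg N a b).length = b - a := by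
  rcases Nat.le_total b a with h | h
  · simp [seg, Nat.sub_eq_zero_of_le h]
  · induction b, h using Nat.le_induction with
    | base => simp [seg_self]
    | succ b hab ih =>
      rw [seg_concat hab (by omega), List.length_append, ih (by omega)]
      simp
      omega

/-- The value of a state at the colours `0, …, k - 1`. -/
def Rep (N : ℕ) {k : ℕ} (F : V k) (S : St N) : Prop :=
  k ≤ N → evalV N k F = S (seg N 0 k)

theorem rep_one : Rep N (1 : V 0) (fun _ => 1) := fun _ => map_one _

theorem evalV_tChain {k : ℕ} (hk : k + 1 ≤ N) {S : St N} (hS : Exch S) :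
    ∀ (j : ℕ) (hj : j ≤ k) (G : V (k + 1)),
      evalV N (k + 1) G = S (seg N 0 j ++ seg N (j + 1) (k + 1)) →
      evalV N (k + 1) (tChain j hj G) = S (seg N 1 (k + 1)) := by
  intro j
  induction j with
  | zero =>
    intro hj G h
    simpa [tChain, seg_self] using h
  | succ j ih =>
    intro hj G h
    refine ih _ _ (evalV_opT hk (fun e => by simp [Fin.ext_iff] at e) ?_)
    rw [h, seg_cons (a := j + 1) (by omega) (by omega), seg_concat (Nat.zero_le j) (by omega),
      List.append_assoc, List.singleton_append]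
    have hne : ⟨j + 1, Nat.lt_of_lt_of_le (by omega) hk⟩ ∉
        seg N 0 j ++ (⟨j, by omega⟩ : Fin N) :: seg N (j + 2) (k + 1) := by
      simp [mem_seg, Fin.ext_iff]
    refine hS.one _ _ (by simp) _ _ ?_ hne
    refine List.nodup_middle.2 (List.nodup_cons.2 ⟨?_, List.nodup_append'.2
      ⟨nodup_seg _ _, nodup_seg _ _, fun x hx hx' => ?_⟩⟩)
    · simp [mem_seg]
    · have h1 := (mem_seg.1 hx).2
      have h2 := (mem_seg.1 hx').1
      omega

/-- `dPlus` adds a vertex. -/
theorem Rep.plus {k : ℕ} {F : V k} {S : St N} (hS : Exch S) (h : Rep N F S) :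
    Rep N (dPlus F) (sPlus S) := by
  intro hk
  rw [sPlus, seg_cons (Nat.succ_pos k) (by omega), List.tail_cons]
  refine evalV_tChain hk hS k le_rfl _ ?_
  rw [evalV_rename_castSucc, h (by omega), seg_self, List.append_nil]

/-- The oldest variable as the variable of a polynomial. -/
theorem evalV_splitLast {k : ℕ} (F : V (k + 1)) :
    evalV N (k + 1) F =
      Polynomial.eval₂ (evalV N k : V k →+* R N) (xv N k) (splitLast F) := by
  have key : ((evalV N (k + 1) : V (k + 1) →ₐ[Polynomial ℤ] R N) : V (k + 1) →+* R N) =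
      (Polynomial.eval₂RingHom (evalV N k : V k →+* R N) (xv N k)).comp
        (splitLast : V (k + 1) →ₐ[Polynomial ℤ] Polynomial (V k)) := by
    refine MvPolynomial.ringHom_ext (fun r => ?_) fun i => ?_
    · simp [evalV, splitLast]
    · rcases i with j | i
      · simp [evalV, splitLast]
      · refine Fin.lastCases ?_ (fun i => ?_) i <;> simp [evalV, splitLast]
  exact RingHom.congr_fun key F

theorem lin_zero : lin (0 : R N) = 1 := by simp [lin]

theorem prod_lin_eq (c : R N) :
    PowerSeries.mk (fun r => (-c) ^ r * esymm (Fin N) (Polynomial ℤ) r) =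
      ∏ i ∈ range N, lin (c * xv N i) := by
  have hp : ∏ i ∈ range N, lin (c * xv N i) =
      ∏ i : Fin N, (1 + PowerSeries.C (-c * X i) * PowerSeries.X) := by
    rw [← Fin.prod_univ_eq_prod_range]
    refine prod_congr rfl fun i _ => ?_
    rw [lin, xv_eq i.2, show -c * X i = -(c * X i) by ring, map_neg]
    ring
  rw [hp, prod_one_add]
  ext r : 1
  rw [PowerSeries.coeff_mk, map_sum, esymm, powersetCard_eq_filter, sum_filter, mul_sum]
  refine sum_congr rfl fun t _ => ?_
  rw [prod_mul_distrib, prod_const, ← map_prod, PowerSeries.coeff_C_mul, PowerSeries.coeff_X_pow,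
    prod_mul_distrib, prod_const]
  rcases eq_or_ne t.card r with rfl | hne
  · simp
  · simp [hne, Ne.symm hne]

theorem evalV_eZ_tail {k : ℕ} (hk : k ≤ N) :
    IsTailESymm N k (fun j => evalV N k (eZ k j)) := by
  intro c
  induction k with
  | zero => simpa [eZ, evalV_eW, ← Nat.Ico_zero_eq_range] using prod_lin_eq c
  | succ k ih =>
    have ih := ih (by omega)
    have e : PowerSeries.mk (fun r => (-c) ^ r * evalV N (k + 1) (eZ (k + 1) r)) =
        geo (c * xv N k) * PowerSeries.mk (fun r => (-c) ^ r * evalV N k (eZ k r)) := by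
      ext r : 1
      rw [PowerSeries.coeff_mk, PowerSeries.coeff_mul,
        Finset.Nat.sum_antidiagonal_eq_sum_range_succ_mk, eZ, map_sum, mul_sum]
      refine sum_congr rfl fun i hi => ?_
      have hir : i ≤ r := Nat.lt_succ_iff.1 (mem_range.1 hi)
      rw [map_mul, map_pow, map_neg, evalV_y, evalV_rename_castSucc, geo, PowerSeries.coeff_mk,
        PowerSeries.coeff_mk, Fin.val_last, ← Nat.add_sub_cancel' hir, pow_add,
        Nat.add_sub_cancel_left]
      rw [show (c * xv N k) ^ i = (-c) ^ i * (-xv N k) ^ i by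
        rw [← mul_pow, show -c * -xv N k = c * xv N k by ring]]
      ring
    rw [e, ih, ← prod_erase_mul _ _ (mem_Ico.2 ⟨le_rfl, by omega⟩ : k ∈ Ico k N), mul_comm,
      mul_assoc, lin_mul_geo, mul_one]
    refine prod_congr ?_ fun _ _ => rfl
    ext i
    simp only [mem_erase, mem_Ico]
    omega

theorem evalV_eZ_zero (k : ℕ) : evalV N k (eZ k 0) = 1 := by
  induction k with
  | zero => simp [eZ, eW]
  | succ k ih => simp [eZ, evalV_rename_castSucc, ih]

theorem evalV_plethP {k : ℕ} (e : ℕ → V k) (r : ℕ) :
    evalV N k (plethP e r) = plethP (fun j => evalV N k (e j)) r := by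
  induction r using Nat.strong_induction_on with
  | _ r ih =>
    rw [plethP, plethP.eq_def (fun j => evalV N k (e j)), map_sub, map_mul, map_mul, map_sum,
      map_pow, map_neg, map_one, AlgHom.commutes]
    refine congrArg₂ _ rfl (sum_congr rfl fun i _ => ?_)
    rw [map_mul, map_mul, map_pow, map_neg, map_one, ih _ (by omega)]

theorem evalV_fixed {k t : ℕ} (hk : k ≤ t) (ht : t + 1 < N) (G : V k) :
    swapX ⟨t, Nat.lt_of_succ_lt ht⟩ ⟨t + 1, ht⟩ (evalV N k G) = evalV N k G := by
  rw [← AlgHom.comp_apply]
  congr 1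
  ext i
  rcases i with j | i
  · simp [evalV, swapX_esymm]
  · simp only [evalV, AlgHom.comp_apply, aeval_X, Sum.elim_inr]
    rw [swapX_xv (by simp; omega) (by simp; omega)]

/-- The value of a state with the oldest vertex at a later colour. -/
theorem state_at_colour {k : ℕ} {F : V (k + 1)} {S : St N} (hS : Exch S) (h : Rep N F S)
    {t : ℕ} (hkt : k ≤ t) : ∀ ht : t < N,
    S (seg N 0 k ++ [⟨t, ht⟩]) =
      (splitLast F).sum fun r G => evalV N k G * PowerSeries.coeff r (tailGen N k t) := by
  induction t, hkt using Nat.le_induction with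
  | base =>
    intro ht
    rw [← seg_concat (Nat.zero_le k) ht, ← h ht, evalV_splitLast, Polynomial.eval₂_eq_sum]
    simp only [tailGen_self, RingHom.coe_coe]
  | succ t hkt ih =>
    intro ht
    set a : Fin N := ⟨t, Nat.lt_of_succ_lt ht⟩ with ha
    set b : Fin N := ⟨t + 1, ht⟩ with hb
    have hnd : (seg N 0 k ++ [a]).Nodup := List.nodup_append'.2 ⟨nodup_seg _ _,
      List.nodup_singleton _, fun x hx hx' => by
        have := (mem_seg.1 hx).2
        rw [List.mem_singleton.1 hx', ha] at this
        simp at this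
        omega⟩
    have hR := (hS.one a b (by simp [ha, hb]) (seg N 0 k) [] hnd
      (by simp [mem_seg, ha, hb, Fin.ext_iff]; omega)).hecke
    have hne : (X b - X a : R N) ≠ 0 := X_sub_X_ne (by simp [ha, hb, Fin.ext_iff])
    rw [ih (Nat.lt_of_succ_lt ht)] at hR
    simp only [Polynomial.sum_def] at hR ⊢
    have hsum : (X b - X a) * ((∑ r ∈ (splitLast F).support,
          evalV N k ((splitLast F).coeff r) * PowerSeries.coeff r (tailGen N k (t + 1))) -
          swapX a b (∑ r ∈ (splitLast F).support,
            evalV N k ((splitLast F).coeff r) * PowerSeries.coeff r (tailGen N k t))) =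
        (C qq - 1) * X a * ((∑ r ∈ (splitLast F).support,
          evalV N k ((splitLast F).coeff r) * PowerSeries.coeff r (tailGen N k t)) -
          swapX a b (∑ r ∈ (splitLast F).support,
            evalV N k ((splitLast F).coeff r) * PowerSeries.coeff r (tailGen N k t))) := by
      simp only [map_sum, map_mul, ← sum_sub_distrib, mul_sum]
      refine sum_congr rfl fun r _ => ?_
      have e := congrArg (PowerSeries.coeff r) (tailGen_step hkt ht)
      rw [PowerSeries.coeff_C_mul, PowerSeries.coeff_C_mul, map_sub, map_sub,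
        PowerSeries.coeff_map, xv_eq ht, xv_eq (Nat.lt_of_succ_lt ht)] at e
      simp only [RingHom.coe_coe] at e
      rw [ha, hb, evalV_fixed hkt ht]
      linear_combination (evalV N k ((splitLast F).coeff r)) * e
    have := mul_left_cancel₀ hne (hR.trans hsum.symm)
    exact sub_left_injective this

/-- `dMinus` retires the oldest active vertex. -/
theorem Rep.minus {k : ℕ} {F : V (k + 1)} {S : St N} (hS : Exch S) (h : Rep N F S) :
    Rep N (dMinus F) (sMinus S) := by
  intro hk
  have hf : univ.filter (fun j => j ∉ seg N 0 k) = univ.filter (fun j : Fin N => k ≤ j.1) := by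
    ext j
    simp [mem_seg]
  have hterm : ∀ j : Fin N, k ≤ j.1 →
      weight (seg N 0 k) j * (X j * S (seg N 0 k ++ [j])) =
        (splitLast F).sum fun r G =>
          evalV N k G * (xv N j.1 * PowerSeries.coeff r (tailGen N k j.1)) := by
    intro j hj
    have hw : (seg N 0 k).countP (fun i => decide (j < i)) = 0 := by
      refine List.countP_eq_zero.2 fun i hi => ?_
      have := (mem_seg.1 hi).2
      simp only [decide_eq_true_eq, Fin.lt_def]
      omega
    rw [weight, hw, pow_zero, C_1, one_mul, state_at_colour hS h hj j.2, xv_eq j.2]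
    simp only [Polynomial.sum_def, mul_sum, Fin.eta]
    exact sum_congr rfl fun r _ => by ring
  rw [sMinus, hf, sum_congr rfl fun j hj => hterm j (mem_filter.1 hj).2]
  simp only [Polynomial.sum_def]
  rw [sum_comm, dMinus, Polynomial.sum_def, map_sum]
  refine sum_congr rfl fun r _ => ?_
  rw [map_mul, evalV_plethP,
    ← retired_eq_plethP hk (evalV_eZ_tail hk) (evalV_eZ_zero k) r, ← mul_sum, retired]
  congr 1
  refine (sum_bij (fun j _ => j.1) ?_ ?_ ?_ ?_).symm
  · intro j hj
    exact mem_Ico.2 ⟨(mem_filter.1 hj).2, j.2⟩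
  · intro i _ j _ e
    exact Fin.ext e
  · intro t ht
    exact ⟨⟨t, (mem_Ico.1 ht).2⟩, mem_filter.2 ⟨mem_univ _, (mem_Ico.1 ht).1⟩, rfl⟩
  · intro j _
    rfl

end Vale.Agent.P066
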